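import Vale.Agent.P037.Drift

namespace Vale.Agent.P037

open Finset
open scoped Classical

/-- Few positions have no recurrence of their colour in a window. -/
theorem comb_bad (M L L' N : ℕ) (hL : 1 ≤ L) (hL' : 1 ≤ L') {β : Type*} (colours : Finset β)
    (hN : colours.card ≤ N) (col : ℕ → Option β) :
    ((range M).filter (fun c => ∃ f ∈ colours, col c = some f ∧
      ∀ i, i < M → c + L ≤ i → i < c + L' → col i ≠ some f)).card
      ≤ N * ((M / L' + 1) * L) := by
  have hsub : ((range M).filter (fun c => ∃ f ∈ colours, col c = some f ∧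
      ∀ i, i < M → c + L ≤ i → i < c + L' → col i ≠ some f)) ⊆
      colours.biUnion (fun f => (range M).filter (fun c => col c = some f ∧
        ∀ i, i < M → c + L ≤ i → i < c + L' → col i ≠ some f)) := by
    intro c hc
    simp only [mem_filter] at hc
    obtain ⟨h1, f, hf, h2⟩ := hc
    exact mem_biUnion.2 ⟨f, hf, mem_filter.2 ⟨h1, h2⟩⟩
  refine (card_le_card hsub).trans (card_biUnion_le.trans ?_)
  refine le_trans (Finset.sum_le_card_nsmul _ _ ((M / L' + 1) * L) (fun f _ => ?_))
    (by rw [smul_eq_mul]; exact Nat.mul_le_mul_right _ hN)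
  rw [show (M / L' + 1) * L = (range (M / L' + 1) ×ˢ range L).card by simp]
  refine card_le_card_of_injOn (fun c => (c / L', c % L)) ?_ ?_
  · intro c hc
    simp only [mem_coe, mem_filter, mem_range] at hc
    simp only [mem_coe, mem_product, mem_range]
    exact ⟨Nat.lt_succ_of_le (Nat.div_le_div_right hc.1.le), Nat.mod_lt _ (by omega)⟩
  · have key : ∀ c c', c < c' → c' < M → col c' = some f →
        (∀ i, i < M → c + L ≤ i → i < c + L' → col i ≠ some f) →
        c / L' = c' / L' → c % L = c' % L → False := by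
      intro c c' hlt hM hcol hno hd hm
      have hpos : 0 < L' := hL'
      have h1 := Nat.div_add_mod c L'
      have h2 := Nat.mod_lt c hpos
      have h3 := Nat.div_add_mod c' L'
      have h4 := Nat.mod_lt c' hpos
      rw [← hd] at h3
      have hdvd : L ∣ c' - c := Nat.dvd_of_mod_eq_zero (Nat.sub_mod_eq_zero_of_mod_eq hm.symm)
      have hge : L ≤ c' - c := Nat.le_of_dvd (by omega) hdvd
      exact hno c' hM (by omega) (by omega) hcol
    intro c hc c' hc' heq
    simp only [mem_coe, mem_filter, mem_range] at hc hc'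
    simp only [Prod.mk.injEq] at heq
    rcases lt_trichotomy c c' with h | h | h
    · exact (key c c' h hc'.1 hc'.2.1 hc.2.2 heq.1 heq.2).elim
    · exact h
    · exact (key c' c h hc.1 hc.2.1 hc'.2.2 heq.1.symm heq.2.symm).elim

variable {n : ℕ}

/-- The columns of a cell lying in one sub-interval with a given fine colour. -/
noncomputable def block (Lt Lf : Fin n → Option (Fin n)) (p M I i : ℕ) (a : Option (Fin n))
    (f : Fin n) : Finset (Fin n) :=
  univ.filter (fun x => ivl (p * M) x = I * M + i ∧ Pat Lt a x ∧ Lf x = some f)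

/-- A fine colour that is frequent in a sub-interval of a cell, if any. -/
noncomputable def colour (Lt Lf : Fin n → Option (Fin n)) (Cf : Finset (Fin n))
    (p M N I : ℕ) (a : Option (Fin n)) (i : ℕ) : Option (Fin n) :=
  if h : ∃ f ∈ Cf, cnt Lt p I a ≤ (block Lt Lf p M I i a f).card * (4 * M * N)
  then some h.choose else none

theorem colour_spec (Lt Lf : Fin n → Option (Fin n)) (Cf : Finset (Fin n))
    (p M N I : ℕ) (a : Option (Fin n)) (i : ℕ) (f : Fin n)
    (h : colour Lt Lf Cf p M N I a i = some f) :
    f ∈ Cf ∧ cnt Lt p I a ≤ (block Lt Lf p M I i a f).card * (4 * M * N) := by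
  unfold colour at h
  split at h
  · next hh =>
    cases h
    exact hh.choose_spec
  · simp at h

/-- Few sub-intervals of a stable big cell have no colour. -/
theorem no_colour (Lt Lf : Fin n → Option (Fin n)) (Cf : Finset (Fin n))
    (p M N Z W W' I : ℕ) (a : Option (Fin n)) (hM : 1 ≤ M) (hn : 1 ≤ n)
    (hCf : Cf.card ≤ N) (hLf : ∀ x f, Lf x = some f → f ∈ Cf)
    (hcov : Z * (univ.filter (fun x => Lf x = none)).card ≤ n)
    (hbig : Big Lt p W' I a) (hst : Stable Lt p M W I a) (hZ : 4 * p * W' * W ≤ Z) :
    W * ((range M).filter (fun i => colour Lt Lf Cf p M N I a i = none)).card ≤ 2 * M := by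
  let U : ℕ → Finset (Fin n) := fun i =>
    univ.filter (fun x => ivl (p * M) x = I * M + i ∧ Lf x = none)
  let poor := (range M).filter (fun i => cnt Lt p I a ≤ 4 * M * (U i).card)
  have hsub : ((range M).filter (fun i => colour Lt Lf Cf p M N I a i = none)) ⊆
      thin Lt p M I a ∪ poor := by
    intro i hi
    simp only [mem_filter] at hi
    simp only [thin, poor, mem_union, mem_filter, hi.1, true_and]
    by_contra hne
    push Not at hne
    obtain ⟨h1, h2⟩ := hne
    have hno : ∀ f ∈ Cf,
        (block Lt Lf p M I i a f).card * (4 * M * N) < cnt Lt p I a := by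
      intro f hf
      by_contra hge
      push Not at hge
      have := hi.2
      unfold colour at this
      rw [dif_pos ⟨f, hf, hge⟩] at this
      simp at this
    have hsplit : cnt Lt (p * M) (I * M + i) a ≤
        (∑ f ∈ Cf, (block Lt Lf p M I i a f).card) + (U i).card := by
      refine le_trans (card_le_card ?_) ((card_union_le (Cf.biUnion
        (fun f => block Lt Lf p M I i a f)) (U i)).trans (Nat.add_le_add_right card_biUnion_le _))
      intro x hx
      simp only [mem_filter, mem_univ, true_and] at hx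
      rcases hfx : Lf x with _ | f
      · exact mem_union_right _ (by simp [U, hx.1, hfx])
      · exact mem_union_left _ (mem_biUnion.2 ⟨f, hLf x f hfx, by simp [block, hx, hfx]⟩)
    have hCN : 4 * M * (∑ f ∈ Cf, (block Lt Lf p M I i a f).card) ≤ cnt Lt p I a := by
      rcases Cf.eq_empty_or_nonempty with he | hne
      · simp [he]
      · have hs : ∑ f ∈ Cf, (block Lt Lf p M I i a f).card * (4 * M * N)
            ≤ N * cnt Lt p I a :=
          (sum_le_sum (fun f hf => (hno f hf).le)).trans (by
            rw [sum_const, smul_eq_mul]; exact Nat.mul_le_mul_right _ hCf)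
        rw [← sum_mul] at hs
        have hN : 0 < N := lt_of_lt_of_le hne.card_pos hCf
        exact Nat.le_of_mul_le_mul_left (by linarith) hN
    have h3 := Nat.mul_le_mul_left (4 * M) hsplit
    rw [mul_add] at h3
    have h4 : 4 * M * cnt Lt (p * M) (I * M + i) a
        = 2 * (2 * M * cnt Lt (p * M) (I * M + i) a) := by ring
    omega
  have hU : ∑ i ∈ range M, (U i).card ≤ (univ.filter (fun x => Lf x = none)).card := by
    rw [← card_sigma]
    refine card_le_card_of_injOn (fun s => s.2) ?_ ?_
    · rintro ⟨i, x⟩ hx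
      simp only [mem_coe, mem_sigma, U, mem_filter, mem_univ, true_and] at hx
      simpa using hx.2.2
    · rintro ⟨i, x⟩ hx ⟨i', x'⟩ hx' rfl
      simp only [mem_coe, mem_sigma, U, mem_filter, mem_univ, true_and] at hx hx'
      have : i = i' := by omega
      subst this
      rfl
  have hpoor : W * poor.card ≤ M := by
    have h1 : poor.card * cnt Lt p I a ≤ 4 * M * (univ.filter (fun x => Lf x = none)).card := by
      refine le_trans ?_ (Nat.mul_le_mul_left _ hU)
      rw [mul_sum, ← smul_eq_mul, ← sum_const]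
      exact le_trans (sum_le_sum (fun i hi => (mem_filter.1 hi).2))
        (sum_le_sum_of_subset (filter_subset _ _))
    have h2 : poor.card * n * (4 * p * W' * W) ≤ 4 * M * n * (p * W') := by
      calc poor.card * n * (4 * p * W' * W)
          ≤ poor.card * (cnt Lt p I a * p * W') * Z :=
            Nat.mul_le_mul (Nat.mul_le_mul_left _ hbig) hZ
        _ = (poor.card * cnt Lt p I a) * Z * (p * W') := by ring
        _ ≤ (4 * M * (univ.filter (fun x => Lf x = none)).card) * Z * (p * W') := by gcongr
        _ = 4 * M * (Z * (univ.filter (fun x => Lf x = none)).card) * (p * W') := by ring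
        _ ≤ _ := by gcongr
    have h3 : (4 * n * (p * W')) * (W * poor.card) ≤ (4 * n * (p * W')) * M :=
      le_trans (le_of_eq (by ring)) (h2.trans (le_of_eq (by ring)))
    have hpos : 0 < 4 * n * (p * W') := by
      have : 0 < cnt Lt p I a * p * W' := lt_of_lt_of_le (by omega) hbig
      have h5 : 0 < p * W' := by
        rw [mul_assoc] at this
        exact Nat.pos_of_mul_pos_left this
      positivity
    exact Nat.le_of_mul_le_mul_left h3 hpos
  have := Nat.mul_le_mul_left W ((card_le_card hsub).trans (card_union_le _ _))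
  rw [mul_add] at this
  unfold Stable at hst
  omega

/-- Common layers for all kept cells of one interval. -/
theorem layers (Lt Lf : Fin n → Option (Fin n)) (Cf : Finset (Fin n))
    (p N Z W W' I k G : ℕ) (cells : Finset (Option (Fin n))) (hk : 1 ≤ k) (hn : 1 ≤ n)
    (hCf : Cf.card ≤ N) (hLf : ∀ x f, Lf x = some f → f ∈ Cf)
    (hcov : Z * (univ.filter (fun x => Lf x = none)).card ≤ n)
    (hcells : ∀ a ∈ cells, Big Lt p W' I a ∧ Stable Lt p (G ^ k) W I a)
    (hW : 8 * cells.card ≤ W) (hZ : 4 * p * W' * W ≤ Z)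
    (hG : 8 * (cells.card * k * N) ≤ G) (hG1 : 1 ≤ G) :
    ∃ (i : Option (Fin n) → ℕ → ℕ) (f : Option (Fin n) → Fin n → Prop),
      ∀ a ∈ cells, ∀ l < k, i a l < G ^ k ∧
        (∀ l' < k, l < l' → ∀ a' ∈ cells, i a l < i a' l') ∧
        ∃ f0, f a f0 ∧ (∀ g, f a g → g = f0) ∧
          colour Lt Lf Cf p (G ^ k) N I a (i a l) = some f0 := by
  obtain ⟨M, hM⟩ : ∃ M, M = G ^ k := ⟨_, rfl⟩
  have hM1 : 1 ≤ M := hM ▸ Nat.one_le_pow _ _ hG1
  rw [← hM] at hcells ⊢
  let col := fun a i => colour Lt Lf Cf p M N I a i
  let badw : Option (Fin n) → ℕ → Finset ℕ := fun a l => (range M).filter (fun c =>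
    ∃ f ∈ Cf, col a c = some f ∧ ∀ i, i < M → c + G ^ l ≤ i → i < c + G ^ (l + 1) →
      col a i ≠ some f)
  let bad := cells.biUnion (fun a => (range M).filter (fun i => col a i = none) ∪
    (range (k - 1)).biUnion (fun l => badw a l))
  have hGk : M = G * G ^ (k - 1) := by rw [hM, ← pow_succ']; congr 1; omega
  have hw : ∀ a l, l < k - 1 → (badw a l).card ≤ N * (2 * G ^ (k - 1)) := by
    intro a l hl
    refine le_trans ?_ ((comb_bad M (G ^ l) (G ^ (l + 1)) N (Nat.one_le_pow _ _ hG1)
      (Nat.one_le_pow _ _ hG1) Cf hCf (col a)).trans ?_)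
    · exact le_of_eq (congrArg card (by ext x; simp [badw]))
    refine Nat.mul_le_mul_left _ ?_
    have h1 : M / G ^ (l + 1) * G ^ l ≤ G ^ (k - 1) := by
      have h2 := Nat.div_mul_le_self M (G ^ (l + 1))
      suffices h5 : G * (M / G ^ (l + 1) * G ^ l) ≤ G * G ^ (k - 1) from
        Nat.le_of_mul_le_mul_left h5 hG1
      rw [← hGk]
      calc G * (M / G ^ (l + 1) * G ^ l) = M / G ^ (l + 1) * G ^ (l + 1) := by ring
        _ ≤ M := h2
    have h3 : G ^ l ≤ G ^ (k - 1) := Nat.pow_le_pow_right hG1 hl.le
    rw [add_mul, one_mul]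
    omega
  have hbad : 8 * bad.card ≤ 4 * M := by
    have h1 : ∀ a ∈ cells, 8 * cells.card * ((range M).filter (fun i => col a i = none) ∪
        (range (k - 1)).biUnion (fun l => badw a l)).card ≤ 4 * M := by
      intro a ha
      have hu := card_union_le ((range M).filter (fun i => col a i = none))
        ((range (k - 1)).biUnion (fun l => badw a l))
      have hn1 := no_colour Lt Lf Cf p M N Z W W' I a hM1 hn hCf hLf hcov (hcells a ha).1
        (hcells a ha).2 hZ
      have hn2 : 8 * cells.card * ((range M).filter (fun i => col a i = none)).card ≤ 2 * M :=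
        (Nat.mul_le_mul_right _ hW).trans hn1
      have hb2 : ((range (k - 1)).biUnion (fun l => badw a l)).card
          ≤ k * (N * (2 * G ^ (k - 1))) := by
        refine card_biUnion_le.trans ?_
        refine (Finset.sum_le_card_nsmul _ _ _ (fun l hl => hw a l (mem_range.1 hl))).trans ?_
        rw [smul_eq_mul, card_range]
        exact Nat.mul_le_mul_right _ (Nat.sub_le _ _)
      have hn3 : 8 * cells.card * ((range (k - 1)).biUnion (fun l => badw a l)).card ≤ 2 * M := by
        calc _ ≤ 8 * cells.card * (k * (N * (2 * G ^ (k - 1)))) := Nat.mul_le_mul_left _ hb2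
          _ = 2 * ((8 * (cells.card * k * N)) * G ^ (k - 1)) := by ring
          _ ≤ 2 * (G * G ^ (k - 1)) := by gcongr
          _ = _ := by rw [← hGk]
      have := Nat.mul_le_mul_left (8 * cells.card) hu
      rw [mul_add] at this
      omega
    rcases cells.eq_empty_or_nonempty with he | hne
    · simp [bad, he]
    · have h2 := Nat.mul_le_mul_left (8 * cells.card)
        (card_biUnion_le (s := cells) (t := fun a => (range M).filter (fun i => col a i = none) ∪
          (range (k - 1)).biUnion (fun l => badw a l)))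
      rw [mul_sum] at h2
      have h3 := h2.trans (Finset.sum_le_card_nsmul _ _ _ h1)
      rw [smul_eq_mul] at h3
      have h4 : cells.card * (8 * bad.card) ≤ cells.card * (4 * M) := by
        calc cells.card * (8 * bad.card) = 8 * cells.card * bad.card := by ring
          _ ≤ _ := h3
      exact Nat.le_of_mul_le_mul_left h4 hne.card_pos
  obtain ⟨c, hc, hcb⟩ : ∃ c ∈ range M, c ∉ bad := by
    by_contra hne
    push Not at hne
    have := card_le_card hne
    rw [card_range] at this
    omega
  simp only [bad, mem_biUnion, mem_union, not_exists, not_and, not_or] at hcb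
  have hcol : ∀ a ∈ cells, ∃ f ∈ Cf, col a c = some f := by
    intro a ha
    rcases hf : col a c with _ | f
    · exact absurd (mem_filter.2 ⟨hc, hf⟩) (hcb a ha).1
    · exact ⟨f, (colour_spec _ _ _ _ _ _ _ _ _ _ hf).1, rfl⟩
  have hnext : ∀ a ∈ cells, ∀ l, l + 1 < k → ∃ i, i < M ∧ c + G ^ l ≤ i ∧ i < c + G ^ (l + 1) ∧
      col a i = col a c := by
    intro a ha l hl
    obtain ⟨f, hf, hfc⟩ := hcol a ha
    by_contra hne
    push Not at hne
    refine (hcb a ha).2 l (mem_range.2 (by omega)) (mem_filter.2 ⟨hc, f, hf, hfc, ?_⟩)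
    intro i hi h1 h2
    have := hne i hi h1 h2
    rwa [hfc] at this
  let i0 : Option (Fin n) → ℕ → ℕ := fun a l =>
    if h0 : l = 0 then c else
      if h : a ∈ cells ∧ l < k then
        (hnext a h.1 (l - 1) (by omega)).choose else c
  refine ⟨i0, fun a g => col a c = some g, fun a ha l hl => ?_⟩
  have hspec : ∀ a ∈ cells, ∀ l < k, i0 a l < M ∧ col a (i0 a l) = col a c ∧
      (l = 0 → i0 a l = c) ∧ (l ≠ 0 → c + G ^ (l - 1) ≤ i0 a l ∧ i0 a l < c + G ^ l) := by
    intro a ha l hl
    by_cases h0 : l = 0
    · subst h0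
      simp [i0, mem_range.1 hc]
    · simp only [i0, dif_neg h0, dif_pos (show a ∈ cells ∧ l < k from ⟨ha, hl⟩)]
      have h := (hnext a ha (l - 1) (by omega)).choose_spec
      refine ⟨h.1, h.2.2.2, fun e => absurd e h0, fun _ => ⟨h.2.1, ?_⟩⟩
      have h2 := h.2.2.1
      have e : l - 1 + 1 = l := by omega
      exact lt_of_lt_of_eq h2 (by rw [e])
  obtain ⟨h1, h2, h3, h4⟩ := hspec a ha l hl
  refine ⟨h1, ?_, ?_⟩
  · intro l' hl' hll a' ha'
    obtain ⟨-, -, -, h4'⟩ := hspec a' ha' l' hl'
    have h5 := (h4' (by omega)).1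
    rcases Nat.eq_zero_or_pos l with h0 | hpos
    · have : 1 ≤ G ^ (l' - 1) := Nat.one_le_pow _ _ hG1
      have := h3 h0
      omega
    · have h6 := (h4 (by omega)).2
      have : G ^ l ≤ G ^ (l' - 1) := Nat.pow_le_pow_right hG1 (by omega)
      omega
  · obtain ⟨f, -, hf⟩ := hcol a ha
    refine ⟨f, hf, fun g hg => ?_, h2.trans hf⟩
    simp only at hg
    rw [hf] at hg
    exact (Option.some.inj hg).symm

end Vale.Agent.P037
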