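import Vale.Agent.P037.Count

namespace Vale.Agent.P037

open Finset
open scoped Classical

/-- Greedy stages: either many increasing tuples satisfy the predicates, or deleting few
points destroys all weakly increasing ones. -/
theorem stage_aux (n m : ℕ) (hm : 1 ≤ m) : ∀ (k : ℕ) (s : ℕ) (Q : Fin k → Fin n → Prop),
    (m ^ k ≤ (univ.filter (fun x : Fin k → Fin n =>
      StrictMono x ∧ ∀ i, s ≤ (x i).val ∧ Q i (x i))).card) ∨
    ∃ D : Finset (Fin n), D.card ≤ k * m ∧ ∀ x : Fin k → Fin n, Monotone x →
      (∀ i, s ≤ (x i).val ∧ Q i (x i)) → ∃ i, x i ∈ D := by
  intro k
  induction k with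
  | zero =>
    intro s Q
    left
    have : (univ.filter (fun x : Fin 0 → Fin n =>
        StrictMono x ∧ ∀ i, s ≤ (x i).val ∧ Q i (x i))) = univ :=
      filter_true_of_mem (fun x _ => ⟨fun a => a.elim0, fun a => a.elim0⟩)
    rw [this, pow_zero, card_univ]
    simp
  | succ k ih =>
    intro s Q
    let S := univ.filter (fun y : Fin n => s ≤ y.val ∧ Q 0 y)
    by_cases hS : S.card < m
    · refine Or.inr ⟨S, ?_, fun x _ hx => ⟨0, ?_⟩⟩
      · rw [Nat.succ_mul]
        omega
      · simpa [S] using hx 0
    · push Not at hS
      let f := S.orderEmbOfFin rfl
      let g : Fin m → Fin n := fun i => f (Fin.castLE hS i)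
      have hg : StrictMono g := fun a b h => f.strictMono (by exact h)
      let F := univ.image g
      let last := g ⟨m - 1, by omega⟩
      have hlast : ∀ i, g i ≤ last := fun i =>
        hg.monotone (Fin.mk_le_mk.2 (by have := i.isLt; omega))
      rcases ih (last.val + 1) (fun i => Q i.succ) with h | ⟨D, hD, hDx⟩
      · left
        have hsub : (F ×ˢ (univ.filter (fun x : Fin k → Fin n => StrictMono x ∧
            ∀ i, last.val + 1 ≤ (x i).val ∧ Q i.succ (x i)))).card ≤
            (univ.filter (fun x : Fin (k + 1) → Fin n =>
              StrictMono x ∧ ∀ i, s ≤ (x i).val ∧ Q i (x i))).card := by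
          refine card_le_card_of_injOn (fun q => Fin.cons q.1 q.2) ?_ ?_
          · rintro ⟨y, x⟩ hq
            simp only [coe_product, Set.mem_prod, mem_coe, mem_filter, mem_univ, true_and,
              F, mem_image] at hq
            obtain ⟨⟨i, rfl⟩, hx, hx'⟩ := hq
            have hSmem : g i ∈ S := orderEmbOfFin_mem _ _ _
            simp only [S, mem_filter, mem_univ, true_and] at hSmem
            have hlt : ∀ a, g i < x a := fun a =>
              lt_of_le_of_lt (hlast i) (by have := (hx' a).1; exact Fin.lt_def.2 (by omega))
            simp only [mem_coe, mem_filter, mem_univ, true_and]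
            refine ⟨?_, ?_⟩
            · intro a b hab
              induction a using Fin.cases with
              | zero =>
                induction b using Fin.cases with
                | zero => exact absurd hab (lt_irrefl _)
                | succ b => simpa using hlt b
              | succ a =>
                induction b using Fin.cases with
                | zero => exact absurd hab (not_lt.2 (Fin.zero_le _))
                | succ b => simpa using hx (Fin.succ_lt_succ_iff.1 hab)
            · intro a
              induction a using Fin.cases with
              | zero => simpa using hSmem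
              | succ a =>
                refine ⟨?_, by simpa using (hx' a).2⟩
                have h1 := hlt a
                have h2 : s ≤ (g i).val := hSmem.1
                rw [Fin.lt_def] at h1
                simp only [Fin.cons_succ]
                omega
          · rintro ⟨y, x⟩ _ ⟨y', x'⟩ _ h
            simp only at h
            have := Fin.cons_inj.1 h
            simp [this.1, this.2]
        refine le_trans ?_ hsub
        rw [card_product, card_image_of_injective _ hg.injective, card_univ, Fintype.card_fin,
          pow_succ']
        exact Nat.mul_le_mul_left _ h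
      · right
        refine ⟨D ∪ F, ?_, fun x hx hQ => ?_⟩
        · refine (card_union_le _ _).trans ?_
          have : F.card ≤ m := card_image_le.trans (by simp)
          rw [Nat.succ_mul]
          omega
        · by_contra hne
          push Not at hne
          have h0S : x 0 ∈ S := by simpa [S] using hQ 0
          obtain ⟨j, hj⟩ : ∃ j, f j = x 0 := by
            have h3 : x 0 ∈ Set.range f := by
              rw [Finset.range_orderEmbOfFin]
              exact h0S
            exact h3
          have hjm : m ≤ j.val := by
            by_contra hlt
            exact hne 0 (mem_union_right _ (mem_image.2 ⟨⟨j.val, by omega⟩, mem_univ _,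
              by simp only [g]; exact hj⟩))
          have hgt : last < x 0 := by
            rw [← hj]
            exact f.strictMono (Fin.lt_def.2 (by simp; omega))
          obtain ⟨i, hi⟩ := hDx (fun i => x i.succ) (fun a b h => hx (Fin.succ_le_succ_iff.2 h))
            (fun i => ⟨by
              have h1 : x 0 ≤ x i.succ := hx (Fin.zero_le _)
              have h2 := hgt.trans_le h1
              rw [Fin.lt_def] at h2
              omega, (hQ i.succ).2⟩)
          exact hne _ (mem_union_left _ hi)

theorem stage (n m : ℕ) (hm : 1 ≤ m) (k : ℕ) (Q : Fin k → Fin n → Prop) :
    (m ^ k ≤ (univ.filter (fun x : Fin k → Fin n => StrictMono x ∧ ∀ i, Q i (x i))).card) ∨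
    ∃ D : Finset (Fin n), D.card ≤ k * m ∧ ∀ x : Fin k → Fin n, Monotone x →
      (∀ i, Q i (x i)) → ∃ i, x i ∈ D := by
  simpa using stage_aux n m hm k 0 Q

end Vale.Agent.P037
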