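import Vale.Agent.P037.Cover2
import Vale.Agent.P037.Stage
import Vale.Agent.P037.Layers

namespace Vale.Agent.P037

open Finset
open scoped Classical

variable {n : ℕ}

/-- Monotone retraction of `Fin n` onto a nonempty finset. -/
noncomputable def retract (K : Finset (Fin n)) (hK : K.Nonempty) (x : Fin n) : Fin n :=
  if h : (K.filter (fun z => x ≤ z)).Nonempty then (K.filter (fun z => x ≤ z)).min' h
  else K.max' hK

theorem retract_mem (K : Finset (Fin n)) (hK : K.Nonempty) (x : Fin n) :
    retract K hK x ∈ K := by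
  unfold retract
  split_ifs with h
  · exact (mem_filter.1 (min'_mem _ h)).1
  · exact max'_mem _ _

theorem retract_fix (K : Finset (Fin n)) (hK : K.Nonempty) (x : Fin n) (hx : x ∈ K) :
    retract K hK x = x := by
  have h : (K.filter (fun z => x ≤ z)).Nonempty := ⟨x, mem_filter.2 ⟨hx, le_rfl⟩⟩
  unfold retract
  rw [dif_pos h]
  refine le_antisymm (min'_le _ _ (mem_filter.2 ⟨hx, le_rfl⟩)) ?_
  exact (mem_filter.1 (min'_mem _ h)).2

theorem retract_mono (K : Finset (Fin n)) (hK : K.Nonempty) : Monotone (retract K hK) := by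
  intro x y hxy
  by_cases hy : (K.filter (fun z => y ≤ z)).Nonempty
  · have hx : (K.filter (fun z => x ≤ z)).Nonempty := by
      obtain ⟨z, hz⟩ := hy
      exact ⟨z, mem_filter.2 ⟨(mem_filter.1 hz).1, hxy.trans (mem_filter.1 hz).2⟩⟩
    unfold retract
    rw [dif_pos hx, dif_pos hy]
    refine min'_le _ _ ?_
    have h := min'_mem _ hy
    exact mem_filter.2 ⟨(mem_filter.1 h).1, hxy.trans (mem_filter.1 h).2⟩
  · have hM : retract K hK y = K.max' hK := by
      unfold retract
      rw [dif_neg hy]
    rw [hM]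
    exact le_max' _ _ (retract_mem K hK x)

/-- The modified matrix: rows are retracted, columns are replaced by representatives. -/
theorem diff_bound (A : Fin n → Fin n → Bool) (K : Finset (Fin n)) (hK : K.Nonempty)
    (g : Fin n → Fin n) :
    diffCount A (fun x a => A (retract K hK x) (g a))
      ≤ (univ \ K).card * n + ∑ a, colDist A a (g a) := by
  rw [diffCount_eq, ← sum_sdiff (subset_univ K)]
  refine Nat.add_le_add ?_ ?_
  · refine (Finset.sum_le_card_nsmul _ _ n (fun x _ => ?_)).trans (le_of_eq (smul_eq_mul _ _))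
    exact (card_le_univ _).trans (le_of_eq (Fintype.card_fin n))
  · unfold colDist
    simp only [card_filter]
    rw [sum_comm]
    refine sum_le_sum (fun a _ => ?_)
    refine le_trans (sum_le_sum (fun x hx => ?_)) (sum_le_sum_of_subset (subset_univ K))
    rw [retract_fix K hK x hx]

set_option maxHeartbeats 1000000 in
/-- The core counting step at one stable scale. -/
theorem core {k : ℕ} (hk : 1 ≤ k) (H : Fin k → Fin k → Bool) (A : Fin n → Fin n → Bool)
    (Lt Lf : Fin n → Option (Fin n)) (Cs Cf : Finset (Fin n))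
    (p G N Z W W' E T μ m0 : ℕ)
    (hE : 1 ≤ E) (hT : 1 ≤ T) (hp : 1 ≤ p) (hG1 : 1 ≤ G) (hμ : 1 ≤ μ) (hm0 : 1 ≤ m0)
    (hCs : Cs.card ≤ T) (hLt : ∀ x c, Lt x = some c → c ∈ Cs)
    (hLtd : ∀ x c, Lt x = some c → 8 * E * colDist A x c ≤ n)
    (hLtn : 8 * E * (univ.filter (fun x => Lt x = none)).card ≤ n)
    (hCf : Cf.card ≤ N) (hLf : ∀ x f, Lf x = some f → f ∈ Cf)
    (hLfd : ∀ x f, Lf x = some f → Z * colDist A x f ≤ n)
    (hLfn : Z * (univ.filter (fun x => Lf x = none)).card ≤ n)
    (hlost : 8 * E * lost Lt Cs p (G ^ k) W W' ≤ n)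
    (hW' : 8 * E * T ≤ W') (hW : 8 * (T + 1) ≤ W) (hZ : 4 * p * W' * W ≤ Z)
    (hG : 8 * ((T + 1) * k * N) ≤ G) (hZ' : 16 * E * (p * (T + 1)) * k ≤ Z)
    (hm0n : 8 * E * k * m0 * (p * (T + 1)) ^ k ≤ n)
    (hμn : μ * (4 * G ^ k * N * p * W') ≤ n) (hpn : 4 * p * G ^ k ≤ n)
    (far : ∀ B : Fin n → Fin n → Bool, copyCount H B = 0 → n ^ 2 ≤ E * diffCount A B) :
    m0 ^ k * μ ^ k ≤ (p * (T + 1)) ^ k * copyCount H A := by
  obtain ⟨M, hM⟩ : ∃ M, M = G ^ k := ⟨_, rfl⟩
  rw [← hM] at hlost hμn hpn
  have hM1 : 1 ≤ M := hM ▸ Nat.one_le_pow _ _ hG1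
  have hn : 1 ≤ n := le_trans (Nat.mul_pos (Nat.mul_pos (by norm_num) hp) hM1) hpn
  have hW'1 : 8 ≤ W' := le_trans (by
    calc 8 = 8 * 1 * 1 := rfl
      _ ≤ 8 * E * T := Nat.mul_le_mul (Nat.mul_le_mul_left _ hE) hT) hW'
  let allLetters : Finset (Option (Fin n)) := insert none (Cs.image some)
  let cellsAt : ℕ → Finset (Option (Fin n)) := fun I =>
    allLetters.filter (fun a => Big Lt p W' I a ∧ Stable Lt p M W I a)
  have hcells_card : ∀ I, (cellsAt I).card ≤ T + 1 := by
    intro I
    refine (card_filter_le _ _).trans ((card_insert_le _ _).trans ?_)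
    exact Nat.add_le_add_right (card_image_le.trans hCs) _
  have hnone : ∀ I < p, none ∈ cellsAt I := by
    intro I hI
    have hcn : ∀ q J : ℕ, cnt Lt q J none
        = (univ.filter (fun x : Fin n => ivl q x = J)).card := by
      intro q J
      unfold cnt
      congr 1
      ext x
      simp [Pat]
    refine mem_filter.2 ⟨mem_insert_self _ _, ?_, ?_⟩
    · have h := (ivl_card (n := n) p I hp hI).2
      rw [← hcn] at h
      have h2 : 4 * p ≤ n := le_trans (Nat.le_mul_of_pos_right _ hM1) hpn
      have h3 : cnt Lt p I none * p * 8 ≤ cnt Lt p I none * p * W' :=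
        Nat.mul_le_mul_left _ hW'1
      unfold Big
      omega
    · have hempty : thin Lt p M I none = ∅ := by
        refine filter_eq_empty_iff.2 (fun i hi => ?_)
        rw [not_lt]
        have hlt : I * M + i < p * M := by
          have h4 := mem_range.1 hi
          have h5 : (I + 1) * M ≤ p * M := Nat.mul_le_mul_right _ hI
          rw [Nat.add_mul, one_mul] at h5
          omega
        have h1 := (ivl_card (n := n) (p * M) (I * M + i) (Nat.mul_pos hp hM1) hlt).2
        have h2 := (ivl_card (n := n) p I hp hI).1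
        rw [← hcn] at h1 h2
        refine Nat.le_of_mul_le_mul_right ?_ hp
        have h3 : 2 * M * cnt Lt (p * M) (I * M + i) none * p
            = 2 * (cnt Lt (p * M) (I * M + i) none * (p * M)) := by ring
        have h4 : 4 * p * M = 4 * (p * M) := by ring
        have h5 : p ≤ p * M := Nat.le_mul_of_pos_right _ hM1
        omega
      simp [Stable, hempty]
  have hlay : ∀ I < p, ∃ (i : Option (Fin n) → ℕ → ℕ) (f : Option (Fin n) → Fin n → Prop),
      ∀ a ∈ cellsAt I, ∀ l < k, i a l < M ∧
        (∀ l' < k, l < l' → ∀ a' ∈ cellsAt I, i a l < i a' l') ∧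
        ∃ f0, f a f0 ∧ (∀ g, f a g → g = f0) ∧
          colour Lt Lf Cf p M N I a (i a l) = some f0 := by
    intro I _
    have hc := hcells_card I
    subst hM
    exact layers Lt Lf Cf p N Z W W' I k G (cellsAt I) hk hn hCf hLf hLfn
      (fun a ha => (mem_filter.1 ha).2) (by omega) hZ
      (le_trans (by gcongr) hG) hG1
  choose li lf hli using hlay
  let Cells : Finset (ℕ × Option (Fin n)) :=
    (range p ×ˢ allLetters).filter (fun γ => γ.2 ∈ cellsAt γ.1)
  have hQ : Cells.card ≤ p * (T + 1) := by
    refine (card_filter_le _ _).trans ?_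
    rw [card_product, card_range]
    exact Nat.mul_le_mul_left _ ((card_insert_le _ _).trans
      (Nat.add_le_add_right (card_image_le.trans hCs) _))
  have hCI : ∀ γ : Cells, γ.1.1 < p ∧ γ.1.2 ∈ cellsAt γ.1.1 := by
    intro γ
    obtain ⟨h1, h2⟩ := mem_filter.1 γ.2
    exact ⟨mem_range.1 (mem_product.1 h1).1, h2⟩
  let pt : Fin k → Cells → ℕ := fun l γ => li γ.1.1 (hCI γ).1 γ.1.2 l.val
  have hS : ∀ (l : Fin k) (γ : Cells), ∃ (S : Finset (Fin n)) (_ : S.card = μ) (f : Fin n),
      lf γ.1.1 (hCI γ).1 γ.1.2 f ∧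
      ∀ x ∈ S, ivl (p * M) x = γ.1.1 * M + pt l γ ∧ Pat Lt γ.1.2 x ∧ Lf x = some f := by
    intro l γ
    obtain ⟨h1, -, f0, hf0, -, hcol⟩ := hli γ.1.1 (hCI γ).1 γ.1.2 (hCI γ).2 l.val l.isLt
    obtain ⟨-, hc⟩ := colour_spec _ _ _ _ _ _ _ _ _ _ hcol
    have hb : Big Lt p W' γ.1.1 γ.1.2 := (mem_filter.1 (hCI γ).2).2.1
    have hμS : μ ≤ (block Lt Lf p M γ.1.1 (pt l γ) γ.1.2 f0).card := by
      refine Nat.le_of_mul_le_mul_right (hμn.trans (hb.trans ?_)) ?_
      · calc cnt Lt p γ.1.1 γ.1.2 * p * W'
            ≤ (block Lt Lf p M γ.1.1 (pt l γ) γ.1.2 f0).card * (4 * M * N) * p * W' := by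
              gcongr
          _ = _ := by ring
      · have hN : 1 ≤ N := le_trans (Finset.card_pos.2 ⟨f0, (colour_spec _ _ _ _ _ _ _ _ _ _
          hcol).1⟩) hCf
        positivity
    obtain ⟨S, hS, hSc⟩ := exists_subset_card_eq hμS
    exact ⟨S, hSc, f0, hf0, fun x hx => by
      simpa [block] using hS hx⟩
  choose S hSc fS hfS hSx using hS
  have hclose : ∀ (l l' : Fin k) (γ : Cells), ∀ x ∈ S l γ, ∀ x' ∈ S l' γ,
      Z * colDist A x x' ≤ 2 * n := by
    intro l l' γ x hx x' hx'
    obtain ⟨-, -, f0, hf0, huniq, -⟩ := hli γ.1.1 (hCI γ).1 γ.1.2 (hCI γ).2 l.val l.isLt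
    have e1 := huniq _ (hfS l γ)
    have e2 := huniq _ (hfS l' γ)
    have h1 := hLfd x (fS l γ) (hSx l γ x hx).2.2
    have h2 := hLfd x' (fS l γ) (by rw [e1, ← e2]; exact (hSx l' γ x' hx').2.2)
    have h3 := Nat.mul_le_mul_left Z (colDist_triangle A x (fS l γ) x')
    rw [mul_add, colDist_comm A (fS l γ) x'] at h3
    omega
  have hord : ∀ (l l' : Fin k) (γ γ' : Cells), l < l' → γ.1.1 ≤ γ'.1.1 →
      ∀ x ∈ S l γ, ∀ x' ∈ S l' γ', x < x' := by
    intro l l' γ γ' hll hII x hx x' hx'
    by_contra hge
    push Not at hge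
    have h1 := ivl_mono (p * M) hge
    rw [(hSx l γ x hx).1, (hSx l' γ' x' hx').1] at h1
    have hb : pt l γ < M := (hli γ.1.1 (hCI γ).1 γ.1.2 (hCI γ).2 l.val l.isLt).1
    rcases Nat.lt_or_ge γ.1.1 γ'.1.1 with hlt | hge'
    · have : (γ.1.1 + 1) * M ≤ γ'.1.1 * M := Nat.mul_le_mul_right _ hlt
      rw [Nat.add_mul, one_mul] at this
      omega
    · obtain ⟨⟨I, a⟩, hγ⟩ := γ
      obtain ⟨⟨I', a'⟩, hγ'⟩ := γ'
      have he : I = I' := le_antisymm hII hge'
      subst he
      have h2 := (hli I (hCI ⟨(I, a), hγ⟩).1 a (hCI ⟨(I, a), hγ⟩).2 l.val l.isLt).2.1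
        l'.val l'.isLt hll a' (hCI ⟨(I, a'), hγ'⟩).2
      simp only [pt] at h1
      omega
  let l0 : Fin k := ⟨0, hk⟩
  have hcell : ∀ x : Fin n, ∃ γ : Cells, γ.1.1 = ivl p x ∧
      (γ.1.2 = if Lt x ∈ cellsAt (ivl p x) then Lt x else none) := by
    intro x
    refine ⟨⟨(ivl p x, if Lt x ∈ cellsAt (ivl p x) then Lt x else none), ?_⟩, rfl, rfl⟩
    refine mem_filter.2 ⟨mem_product.2 ⟨mem_range.2 (ivl_lt hp x), ?_⟩, ?_⟩
    · split_ifs with h
      · exact (mem_filter.1 h).1
      · exact mem_insert_self _ _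
    · split_ifs with h
      · exact h
      · exact hnone _ (ivl_lt hp x)
  choose cell hcellI hcellA using hcell
  let drop := univ.filter (fun x : Fin n => Lt x = none ∨ Lt x ∉ cellsAt (ivl p x))
  have hdrop : 8 * E * drop.card ≤ 3 * n := by
    have hsub : drop ⊆ univ.filter (fun x => Lt x = none) ∪
        (range p ×ˢ Cs).biUnion (fun q =>
          if ¬ (Big Lt p W' q.1 (some q.2) ∧ Stable Lt p M W q.1 (some q.2)) then
            univ.filter (fun x => ivl p x = q.1 ∧ Pat Lt (some q.2) x) else ∅) := by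
      intro x hx
      rcases hLx : Lt x with _ | c
      · exact mem_union_left _ (by simp [hLx])
      · refine mem_union_right _ (mem_biUnion.2 ⟨(ivl p x, c),
          mem_product.2 ⟨mem_range.2 (ivl_lt hp x), hLt x c hLx⟩, ?_⟩)
        have h1 : some c ∉ cellsAt (ivl p x) := by
          have := (mem_filter.1 hx).2
          simpa [hLx] using this
        have h2 : ¬ (Big Lt p W' (ivl p x) (some c) ∧ Stable Lt p M W (ivl p x) (some c)) :=
          fun h => h1 (mem_filter.2 ⟨mem_insert_of_mem (mem_image.2 ⟨c, hLt x c hLx, rfl⟩), h⟩)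
        simp [h2, Pat, hLx]
    have h1 := (card_le_card hsub).trans ((card_union_le _ _).trans
      (Nat.add_le_add_left card_biUnion_le _))
    have h2 : ∑ q ∈ range p ×ˢ Cs, (if ¬ (Big Lt p W' q.1 (some q.2) ∧
          Stable Lt p M W q.1 (some q.2)) then
            univ.filter (fun x => ivl p x = q.1 ∧ Pat Lt (some q.2) x) else ∅).card
        ≤ lost Lt Cs p M W W' + ∑ q ∈ range p ×ˢ Cs,
            (if Big Lt p W' q.1 (some q.2) then 0 else cnt Lt p q.1 (some q.2)) := by
      unfold lost
      rw [← sum_product' (s := range p) (t := Cs), ← sum_add_distrib]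
      refine sum_le_sum (fun q _ => ?_)
      by_cases hb : Big Lt p W' q.1 (some q.2) <;>
        by_cases hs : Stable Lt p M W q.1 (some q.2) <;> simp [hb, hs, cnt]
    have h3 : 8 * E * ∑ q ∈ range p ×ˢ Cs,
        (if Big Lt p W' q.1 (some q.2) then 0 else cnt Lt p q.1 (some q.2)) ≤ n := by
      have h4 : p * W' * ∑ q ∈ range p ×ˢ Cs,
          (if Big Lt p W' q.1 (some q.2) then 0 else cnt Lt p q.1 (some q.2))
          ≤ (p * T) * n := by
        rw [mul_sum]
        refine (Finset.sum_le_card_nsmul _ _ n (fun q _ => ?_)).trans ?_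
        · split_ifs with hb
          · simp
          · unfold Big at hb
            push Not at hb
            exact le_of_eq_of_le (by ring) hb.le
        · rw [smul_eq_mul, card_product, card_range]
          gcongr
      refine Nat.le_of_mul_le_mul_left (le_trans ?_ h4) (Nat.mul_pos hp hT)
      generalize (∑ q ∈ range p ×ˢ Cs,
        (if Big Lt p W' q.1 (some q.2) then 0 else cnt Lt p q.1 (some q.2))) = Sm
      calc p * T * (8 * E * Sm) = p * (8 * E * T) * Sm := by ring
        _ ≤ p * W' * Sm := Nat.mul_le_mul_right _ (Nat.mul_le_mul_left _ hW')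
    have := Nat.mul_le_mul_left (8 * E) (h1.trans (Nat.add_le_add_left h2 _))
    rw [mul_add, mul_add] at this
    omega
  have hpick : ∀ σ : Fin k × Cells → Fin μ, ∃ y : Fin k → Cells → Fin n,
      ∀ l γ, y l γ = (S l γ).orderEmbOfFin (hSc l γ) (σ (l, γ)) := fun σ => ⟨_, fun _ _ => rfl⟩
  choose y hy using hpick
  have hyS : ∀ σ l γ, y σ l γ ∈ S l γ := fun σ l γ => by
    rw [hy]
    exact orderEmbOfFin_mem _ _ _
  have hcost : ∀ σ, 8 * E * ∑ a, colDist A a (y σ l0 (cell a)) ≤ 5 * (n * n) := by
    intro σ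
    rw [← sum_sdiff (subset_univ drop), mul_add]
    have h1 : 8 * E * ∑ a ∈ drop, colDist A a (y σ l0 (cell a)) ≤ 3 * (n * n) := by
      calc 8 * E * ∑ a ∈ drop, colDist A a (y σ l0 (cell a)) ≤ 8 * E * (drop.card * n) := by
            refine Nat.mul_le_mul_left _ ((Finset.sum_le_card_nsmul _ _ n (fun a _ => ?_)).trans
              (le_of_eq (smul_eq_mul _ _)))
            exact (card_le_univ _).trans (le_of_eq (Fintype.card_fin n))
        _ ≤ 3 * n * n := by rw [← mul_assoc]; exact Nat.mul_le_mul_right _ hdrop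
        _ = _ := by ring
    have h2 : 8 * E * ∑ a ∈ univ \ drop, colDist A a (y σ l0 (cell a)) ≤ 2 * (n * n) := by
      rw [mul_sum]
      refine (Finset.sum_le_card_nsmul _ _ (2 * n) (fun a ha => ?_)).trans ?_
      · simp only [drop, mem_sdiff, mem_filter, mem_univ, true_and] at ha
        push Not at ha
        obtain ⟨hne, hin⟩ := ha
        obtain ⟨c, hc⟩ := Option.ne_none_iff_exists'.1 hne
        have hA : (cell a).1.2 = some c := by rw [hcellA, if_pos hin, hc]
        have hy' : Lt (y σ l0 (cell a)) = some c := by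
          have := (hSx _ _ _ (hyS σ l0 (cell a))).2.1
          rw [hA] at this
          simpa [Pat] using this
        have h3 := Nat.mul_le_mul_left (8 * E) (colDist_triangle A a c (y σ l0 (cell a)))
        rw [mul_add, colDist_comm A c (y σ l0 (cell a))] at h3
        have h4 := hLtd a c hc
        have h5 := hLtd _ c hy'
        omega
      · rw [smul_eq_mul]
        calc (univ \ drop).card * (2 * n) ≤ n * (2 * n) :=
              Nat.mul_le_mul_right _ ((card_le_univ _).trans (le_of_eq (Fintype.card_fin n)))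
          _ = _ := by ring
    omega
  let good : (Fin k → Cells) → (Fin k × Cells → Fin μ) → Finset (Fin k → Fin n) := fun u σ =>
    univ.filter (fun x => (x, fun j => y σ j (u j)) ∈ copySet H A)
  have hstep : ∀ σ, m0 ^ k ≤ ∑ u : Fin k → Cells, (good u σ).card := by
    intro σ
    by_contra hlt
    push Not at hlt
    have hsmall : ∀ u : Fin k → Cells, (Monotone fun j => (u j).1.1) →
        ∃ D : Finset (Fin n), D.card ≤ k * m0 ∧ ∀ x : Fin k → Fin n, Monotone x →
          (∀ i, ∀ j, A (x i) (y σ j (u j)) = H i j) → ∃ i, x i ∈ D := by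
      intro u hu
      rcases stage n m0 hm0 k (fun i z => ∀ j, A z (y σ j (u j)) = H i j) with h | h
      · exfalso
        have h1 : m0 ^ k ≤ (good u σ).card := by
          refine h.trans (card_le_card (fun x hx => ?_))
          simp only [mem_filter, mem_univ, true_and] at hx
          simp only [good, copySet, mem_filter, mem_univ, true_and]
          exact ⟨hx.1, fun a b hab => hord a b (u a) (u b) hab (hu hab.le) _ (hyS σ _ _) _
            (hyS σ _ _), hx.2⟩
        have h2 : (good u σ).card ≤ ∑ u : Fin k → Cells, (good u σ).card :=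
          single_le_sum (f := fun u => (good u σ).card) (fun _ _ => Nat.zero_le _) (mem_univ u)
        omega
      · exact h
    choose D hD hDx using hsmall
    let Bad : Finset (Fin n) := (univ : Finset (Fin k × Cells)).biUnion (fun q =>
      univ.filter (fun x => A x (y σ q.1 q.2) ≠ A x (y σ l0 q.2)))
    let Del : Finset (Fin n) := (univ : Finset (Fin k → Cells)).biUnion (fun u =>
      if h : Monotone fun j => (u j).1.1 then D u h else ∅)
    have hBad : 8 * E * Bad.card ≤ n := by
      have hzb : Z * Bad.card ≤ k * (p * (T + 1)) * (2 * n) := by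
        refine (Nat.mul_le_mul_left Z card_biUnion_le).trans ?_
        rw [mul_sum]
        refine (Finset.sum_le_card_nsmul _ _ (2 * n) (fun q _ => ?_)).trans ?_
        · exact hclose q.1 l0 q.2 _ (hyS σ _ _) _ (hyS σ _ _)
        · rw [smul_eq_mul, card_univ, Fintype.card_prod, Fintype.card_fin, Fintype.card_coe]
          gcongr
      have h1 : 16 * E * (p * (T + 1)) * k * Bad.card ≤ k * (p * (T + 1)) * (2 * n) :=
        (Nat.mul_le_mul_right _ hZ').trans hzb
      have h2 : (2 * (p * (T + 1)) * k) * (8 * E * Bad.card) ≤ (2 * (p * (T + 1)) * k) * n :=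
        le_trans (le_of_eq (by ring)) (h1.trans (le_of_eq (by ring)))
      exact Nat.le_of_mul_le_mul_left h2 (by positivity)
    have hDel : 8 * E * Del.card ≤ n := by
      refine le_trans (Nat.mul_le_mul_left _ (card_biUnion_le.trans
        (Finset.sum_le_card_nsmul _ _ (k * m0) (fun u _ => ?_)))) ?_
      · split_ifs with h
        · exact hD u h
        · simp
      · rw [smul_eq_mul, card_univ, Fintype.card_fun, Fintype.card_fin, Fintype.card_coe]
        refine le_trans ?_ hm0n
        calc 8 * E * (Cells.card ^ k * (k * m0))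
            ≤ 8 * E * ((p * (T + 1)) ^ k * (k * m0)) := by gcongr
          _ = _ := by ring
    obtain ⟨K, hKdef⟩ : ∃ K, K = univ \ (Bad ∪ Del) := ⟨_, rfl⟩
    have hrem : 8 * E * (univ \ K).card ≤ 2 * n := by
      rw [hKdef, sdiff_sdiff_right_self]
      refine le_trans (Nat.mul_le_mul_left _ (card_le_card inf_le_right)) ?_
      have := Nat.mul_le_mul_left (8 * E) (card_union_le Bad Del)
      rw [mul_add] at this
      omega
    have hK : K.Nonempty := by
      by_contra hne
      rw [not_nonempty_iff_eq_empty] at hne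
      rw [hne, sdiff_empty, card_univ, Fintype.card_fin] at hrem
      have : 8 * n ≤ 8 * E * n := Nat.mul_le_mul_right _ (Nat.le_mul_of_pos_right _ hE)
      omega
    let B : Fin n → Fin n → Bool := fun x a => A (retract K hK x) (y σ l0 (cell a))
    have hdiff : 8 * E * diffCount A B ≤ 7 * (n * n) := by
      refine le_trans (Nat.mul_le_mul_left _ (diff_bound A K hK _)) ?_
      have h1 := Nat.mul_le_mul_right n hrem
      have h2 := hcost σ
      rw [mul_assoc, mul_assoc 2] at h1
      rw [mul_add]
      omega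
    have hB : copyCount H B ≠ 0 := by
      intro h0
      have h1 := Nat.mul_le_mul_left 8 (far B h0)
      have h2 : 0 < n * n := Nat.mul_pos hn hn
      rw [← mul_assoc, sq] at h1
      omega
    obtain ⟨⟨xs, as⟩, hcopy⟩ : (copySet H B).Nonempty := by
      rw [← card_pos, card_copySet]
      omega
    simp only [copySet, mem_filter, mem_univ, true_and] at hcopy
    obtain ⟨hxs, has, hH⟩ := hcopy
    have hu : Monotone fun j => (cell (as j)).1.1 := by
      intro a b hab
      simp only [hcellI]
      exact ivl_mono p (has.monotone hab)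
    obtain ⟨i, hi⟩ := hDx (fun j => cell (as j)) hu (fun i => retract K hK (xs i))
      ((retract_mono K hK).comp hxs.monotone) (fun i j => by
        have hK' := (Finset.ext_iff.1 hKdef _).1 (retract_mem K hK (xs i))
        simp only [mem_sdiff, mem_univ, true_and, mem_union, not_or] at hK'
        have hb := hK'.1
        simp only [Bad, mem_biUnion, mem_univ, true_and, mem_filter, not_exists, not_not] at hb
        have h1 := hb (j, cell (as j))
        have h2 := hH i j
        simp only [B] at h2
        exact h1.trans h2)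
    have hK' := (Finset.ext_iff.1 hKdef _).1 (retract_mem K hK (xs i))
    simp only [mem_sdiff, mem_univ, true_and, mem_union, not_or] at hK'
    apply hK'.2
    refine mem_biUnion.2 ⟨fun j => cell (as j), mem_univ _, ?_⟩
    rw [dif_pos hu]
    exact hi
  haveI : Nonempty (Fin μ) := ⟨⟨0, hμ⟩⟩
  obtain ⟨sc, hscdef⟩ : ∃ c, c = Fintype.card (Fin k × Cells → Fin μ) := ⟨_, rfl⟩
  have hfib : ∀ u : Fin k → Cells,
      (∑ σ : Fin k × Cells → Fin μ, (good u σ).card) * μ ^ k ≤ copyCount H A * sc := by
    intro u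
    let pos : Fin k → Fin k × Cells := fun j => (j, u j)
    have hpos : Function.Injective pos := fun a b h => congrArg Prod.fst h
    have hswap : ∑ σ : Fin k × Cells → Fin μ, (good u σ).card
        = ∑ q ∈ copySet H A, (univ.filter
            (fun σ : Fin k × Cells → Fin μ => (fun j => y σ j (u j)) = q.2)).card := by
      rw [← card_sigma, ← card_sigma]
      refine card_bij' (fun s _ => ⟨(s.2, fun j => y s.1 j (u j)), s.1⟩)
        (fun s _ => ⟨s.2, s.1.1⟩) ?_ ?_ ?_ ?_
      · intro s hs
        simp only [mem_sigma, good, mem_filter, mem_univ, true_and] at hs ⊢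
        exact ⟨hs, trivial⟩
      · intro s hs
        simp only [mem_sigma, good, mem_filter, mem_univ, true_and] at hs ⊢
        rw [hs.2]
        exact hs.1
      · intro s hs
        rfl
      · intro s hs
        simp only [mem_sigma, mem_filter, mem_univ, true_and] at hs
        simp only [hs.2]
    rw [hswap, sum_mul, ← card_copySet, ← smul_eq_mul, ← sum_const]
    refine sum_le_sum (fun q _ => ?_)
    by_cases hne : (univ.filter
        (fun σ : Fin k × Cells → Fin μ => (fun j => y σ j (u j)) = q.2)).Nonempty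
    · obtain ⟨σ0, hσ0⟩ := hne
      have heq : (univ.filter (fun σ : Fin k × Cells → Fin μ => (fun j => y σ j (u j)) = q.2))
          = univ.filter (fun σ : Fin k × Cells → Fin μ => σ ∘ pos = σ0 ∘ pos) := by
        ext σ
        simp only [mem_filter, mem_univ, true_and] at hσ0 ⊢
        constructor
        · intro h
          funext j
          have h1 := congrFun (h.trans hσ0.symm) j
          rw [hy, hy] at h1
          exact ((S j (u j)).orderEmbOfFin (hSc j (u j))).injective h1
        · intro h
          rw [← hσ0]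
          funext j
          have h1 : σ (j, u j) = σ0 (j, u j) := congrFun h j
          rw [hy, hy, h1]
      rw [heq, hscdef]
      have := card_fix_mul pos hpos (σ0 ∘ pos)
      rw [Fintype.card_fun]
      simp only [Fintype.card_fin] at this ⊢
      exact le_of_eq this
    · rw [not_nonempty_iff_eq_empty.1 hne]
      simp
  have h1 : sc * m0 ^ k * μ ^ k
      ≤ ∑ u : Fin k → Cells, (∑ σ : Fin k × Cells → Fin μ, (good u σ).card) * μ ^ k := by
    rw [← sum_mul, sum_comm]
    refine Nat.mul_le_mul_right _ ?_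
    rw [hscdef, ← card_univ, ← smul_eq_mul, ← sum_const]
    exact sum_le_sum (fun σ _ => hstep σ)
  have h2 := h1.trans ((sum_le_sum (fun u _ => hfib u)).trans
    (le_of_eq (by rw [sum_const, card_univ, smul_eq_mul])))
  have hscpos : 0 < sc := hscdef ▸ Fintype.card_pos
  have h3 : sc * (m0 ^ k * μ ^ k) ≤ sc * ((p * (T + 1)) ^ k * copyCount H A) := by
    rw [← mul_assoc]
    refine h2.trans ?_
    rw [Fintype.card_fun, Fintype.card_fin, Fintype.card_coe]
    calc Cells.card ^ k * (copyCount H A * sc) ≤ (p * (T + 1)) ^ k * (copyCount H A * sc) :=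
          Nat.mul_le_mul_right _ (Nat.pow_le_pow_left hQ _)
      _ = _ := by ring
  exact Nat.le_of_mul_le_mul_left h3 hscpos

end Vale.Agent.P037
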