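import Vale.Agent.P037.Defs

namespace Vale.Agent.P037

open Finset
open scoped Classical

/-- The finset of ordered copies. -/
noncomputable def copySet {n k : ℕ} (H : Fin k → Fin k → Bool) (A : Fin n → Fin n → Bool) :
    Finset ((Fin k → Fin n) × (Fin k → Fin n)) :=
  univ.filter (fun p => StrictMono p.1 ∧ StrictMono p.2 ∧ ∀ i j, A (p.1 i) (p.2 j) = H i j)

theorem card_copySet {n k : ℕ} (H : Fin k → Fin k → Bool) (A : Fin n → Fin n → Bool) :
    (copySet H A).card = copyCount H A := by
  rw [copyCount, Nat.card_eq_fintype_card, Fintype.card_subtype]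
  rfl

theorem diffCount_eq {n : ℕ} (A B : Fin n → Fin n → Bool) :
    diffCount A B = ∑ x : Fin n, (univ.filter (fun y => A x y ≠ B x y)).card := by
  rw [diffCount, Nat.card_eq_fintype_card, Fintype.card_subtype]
  simp only [card_filter]
  rw [Fintype.sum_prod_type]

/-- Functions with prescribed values on an injective tuple of coordinates. -/
theorem card_fix_mul {ι β : Type*} [Fintype ι] [Fintype β] [DecidableEq ι]
    [DecidableEq β] [Nonempty β] {k : ℕ}
    (pos : Fin k → ι) (hpos : Function.Injective pos) (c : Fin k → β) :
    (univ.filter (fun f : ι → β => f ∘ pos = c)).card * Fintype.card β ^ k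
      = Fintype.card β ^ Fintype.card ι := by
  have key : ∀ d : Fin k → β, (univ.filter (fun f : ι → β => f ∘ pos = d)).card
      = (univ.filter (fun f : ι → β => f ∘ pos = c)).card := by
    intro d
    refine card_bij' (fun f _ => Function.extend pos c f) (fun f _ => Function.extend pos d f)
      ?_ ?_ ?_ ?_
    · intro f _
      simp only [mem_filter, mem_univ, true_and]
      funext i
      exact hpos.extend_apply _ _ i
    · intro f _
      simp only [mem_filter, mem_univ, true_and]
      funext i
      exact hpos.extend_apply _ _ i
    · intro f hf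
      simp only [mem_filter, mem_univ, true_and] at hf
      funext x
      by_cases h : ∃ i, pos i = x
      · obtain ⟨i, rfl⟩ := h
        rw [hpos.extend_apply, ← hf]
        rfl
      · rw [Function.extend_apply' _ _ _ h, Function.extend_apply' _ _ _ h]
    · intro f hf
      simp only [mem_filter, mem_univ, true_and] at hf
      funext x
      by_cases h : ∃ i, pos i = x
      · obtain ⟨i, rfl⟩ := h
        rw [hpos.extend_apply, ← hf]
        rfl
      · rw [Function.extend_apply' _ _ _ h, Function.extend_apply' _ _ _ h]
  have h := card_eq_sum_card_fiberwise (s := (univ : Finset (ι → β)))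
    (t := (univ : Finset (Fin k → β))) (f := fun f => f ∘ pos) (fun _ _ => mem_univ _)
  rw [sum_congr rfl (fun d _ => key d), sum_const, smul_eq_mul, card_univ, card_univ,
    Fintype.card_fun, Fintype.card_fun, Fintype.card_fin] at h
  rw [h, mul_comm]

/-- Samples containing a prescribed tuple with pairwise distinct entries. -/
theorem card_contains_mul {n k : ℕ} {ι : Type*} [Fintype ι] [DecidableEq ι] [NeZero n]
    (c : Fin k → Fin n)
    (hc : Function.Injective c) :
    (univ.filter (fun f : ι → Fin n => ∀ i, ∃ j, f j = c i)).card * n ^ k
      ≤ Fintype.card ι ^ k * n ^ Fintype.card ι := by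
  have hsub : (univ.filter (fun f : ι → Fin n => ∀ i, ∃ j, f j = c i)) ⊆
      ((univ : Finset (Fin k → ι)).filter Function.Injective).biUnion
        (fun pos => univ.filter (fun f : ι → Fin n => f ∘ pos = c)) := by
    intro f hf
    simp only [mem_filter, mem_univ, true_and] at hf
    choose pos hpos using hf
    simp only [mem_biUnion, mem_filter, mem_univ, true_and]
    refine ⟨pos, ?_, funext hpos⟩
    intro a b hab
    apply hc
    rw [← hpos a, ← hpos b, hab]
  calc _ ≤ (∑ pos ∈ ((univ : Finset (Fin k → ι)).filter Function.Injective),
        (univ.filter (fun f : ι → Fin n => f ∘ pos = c)).card) * n ^ k :=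
        Nat.mul_le_mul_right _ ((card_le_card hsub).trans card_biUnion_le)
    _ = ∑ pos ∈ ((univ : Finset (Fin k → ι)).filter Function.Injective), n ^ Fintype.card ι := by
        rw [sum_mul]
        refine sum_congr rfl (fun pos hp => ?_)
        have := card_fix_mul pos (mem_filter.1 hp).2 c
        simpa using this
    _ ≤ Fintype.card ι ^ k * n ^ Fintype.card ι := by
        rw [sum_const, smul_eq_mul]
        refine Nat.mul_le_mul_right _ ((card_filter_le _ _).trans ?_)
        simp

end Vale.Agent.P037
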