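import Vale.Agent.P037.Count

namespace Vale.Agent.P037

open Finset
open scoped Classical

variable {n k : ℕ}

/-- The number of rows on which two columns differ. -/
noncomputable def colDist (A : Fin n → Fin n → Bool) (a b : Fin n) : ℕ :=
  (univ.filter (fun x => A x a ≠ A x b)).card

theorem colDist_comm (A : Fin n → Fin n → Bool) (a b : Fin n) : colDist A a b = colDist A b a := by
  unfold colDist
  congr 1
  ext x
  simp [ne_comm]

theorem colDist_triangle (A : Fin n → Fin n → Bool) (a b c : Fin n) :
    colDist A a c ≤ colDist A a b + colDist A b c := by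
  refine le_trans (card_le_card ?_) (card_union_le _ _)
  intro x hx
  simp only [mem_filter, mem_univ, true_and, mem_union] at hx ⊢
  by_contra h
  push Not at h
  exact hx (h.1.trans h.2)

theorem colDist_self (A : Fin n → Fin n → Bool) (a : Fin n) : colDist A a a = 0 := by
  simp [colDist]

/-- Many distinct patterns on a row set force an ordered copy of every fixed pattern. -/
theorem copy_of_patterns (hk : 1 ≤ k) (H : Fin k → Fin k → Bool) (A : Fin n → Fin n → Bool)
    (R S : Finset (Fin n)) (s : ℕ) (hR : R.card ≤ s)
    (hdist : Set.InjOn (fun y => R.filter (fun x => A x y = true)) ↑S)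
    (hS : k * (s + 1) ^ k * ((s + 1) ^ k + 1) ≤ S.card) :
    ∃ p ∈ copySet H A, (∀ i, p.1 i ∈ R) ∧ (∀ j, p.2 j ∈ S) := by
  obtain ⟨L, hL⟩ : ∃ L, L = (s + 1) ^ k + 1 := ⟨_, rfl⟩
  obtain ⟨G, hG⟩ : ∃ G, G = k * (s + 1) ^ k := ⟨_, rfl⟩
  obtain ⟨S', hS', hcard⟩ := exists_subset_card_eq (n := G * L) (by rw [hG, hL]; exact hS)
  let e := S'.orderEmbOfFin hcard
  have hidx : ∀ (g : Fin G) (l : Fin L), g.val * L + l.val < G * L := by
    intro g l
    calc g.val * L + l.val < g.val * L + L := by have := l.isLt; omega
      _ = (g.val + 1) * L := by ring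
      _ ≤ G * L := Nat.mul_le_mul_right _ g.isLt
  let col : Fin G → Fin L → Fin n := fun g l => e ⟨g.val * L + l.val, hidx g l⟩
  let pat : Fin n → Finset (Fin n) := fun y => R.filter (fun x => A x y = true)
  have hcolS : ∀ g l, col g l ∈ S := fun g l => hS' (orderEmbOfFin_mem _ _ _)
  have hshat : ∀ g : Fin G, ∃ K : Finset (Fin n), K ∈ R.powersetCard k ∧
      ((univ : Finset (Fin L)).image (fun l => pat (col g l))).Shatters K := by
    intro g
    let F := (univ : Finset (Fin L)).image (fun l => pat (col g l))
    have hF : F.card = L := by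
      rw [card_image_of_injective, card_univ, Fintype.card_fin]
      intro a b hab
      have h1 := hdist (hcolS g a) (hcolS g b) hab
      have h2 := e.injective h1
      have h3 := congrArg Fin.val h2
      simp only at h3
      exact Fin.ext (by omega)
    have hsubR : ∀ K ∈ F.shatterer, K ⊆ R := by
      intro K hK
      obtain ⟨t, ht, hKt⟩ := (mem_shatterer.1 hK).exists_superset
      obtain ⟨l, -, rfl⟩ := mem_image.1 ht
      exact hKt.trans (filter_subset _ _)
    have hbig : ∃ K ∈ F.shatterer, k ≤ K.card := by
      by_contra hne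
      push Not at hne
      have hsub : F.shatterer ⊆ (range k).biUnion (fun i => R.powersetCard i) := by
        intro K hK
        simp only [mem_biUnion, mem_range, mem_powersetCard]
        exact ⟨K.card, hne K hK, hsubR K hK, rfl⟩
      have hle : ((range k).biUnion (fun i => R.powersetCard i)).card ≤ (s + 1) ^ k := by
        refine card_biUnion_le.trans ?_
        calc ∑ i ∈ range k, (R.powersetCard i).card ≤ ∑ i ∈ range k, s ^ i := by
              refine sum_le_sum (fun i _ => ?_)
              rw [card_powersetCard]
              exact (Nat.choose_le_pow _ _).trans (Nat.pow_le_pow_left hR _)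
          _ ≤ ∑ i ∈ range (k + 1), k.choose i * s ^ i := by
              refine le_trans (sum_le_sum (fun i hi => ?_))
                (sum_le_sum_of_subset (range_subset_range.2 (Nat.le_succ k)))
              exact Nat.le_mul_of_pos_left _ (Nat.choose_pos (le_of_lt (mem_range.1 hi)))
          _ = (s + 1) ^ k := by
              rw [add_pow]
              exact sum_congr rfl (fun i _ => by simp [mul_comm])
      have := (card_le_card_shatterer F).trans ((card_le_card hsub).trans hle)
      omega
    obtain ⟨K, hK, hKk⟩ := hbig
    obtain ⟨K', hK', hK'c⟩ := exists_subset_card_eq hKk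
    exact ⟨K', mem_powersetCard.2 ⟨hK'.trans (hsubR K hK), hK'c⟩,
      Shatters.mono_right hK' (mem_shatterer.1 hK)⟩
  choose K hKmem hKsh using hshat
  obtain ⟨K0, hK0, hfib⟩ : ∃ K0 ∈ R.powersetCard k,
      k ≤ ((univ : Finset (Fin G)).filter (fun g => K g = K0)).card := by
    by_contra hne
    push Not at hne
    have h1 := card_eq_sum_card_fiberwise (s := (univ : Finset (Fin G))) (t := R.powersetCard k)
      (f := K) (fun g _ => hKmem g)
    have h2 : ∑ b ∈ R.powersetCard k, ((univ : Finset (Fin G)).filter (fun g => K g = b)).card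
        ≤ ∑ b ∈ R.powersetCard k, (k - 1) :=
      sum_le_sum (fun b hb => by have := hne b hb; omega)
    rw [sum_const, smul_eq_mul] at h2
    have h3 : (R.powersetCard k).card ≤ (s + 1) ^ k := by
      rw [card_powersetCard]
      exact (Nat.choose_le_pow _ _).trans (Nat.pow_le_pow_left (by omega) _)
    rw [card_univ, Fintype.card_fin] at h1
    have h4 := h1.le.trans (h2.trans (Nat.mul_le_mul_right _ h3))
    rw [hG] at h4
    have hp : 0 < (s + 1) ^ k := by positivity
    have : k ≤ k - 1 := Nat.le_of_mul_le_mul_left (by rw [mul_comm] at h4; exact h4) hp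
    omega
  obtain ⟨Gs, hGs, hGsc⟩ := exists_subset_card_eq hfib
  let gi := Gs.orderEmbOfFin hGsc
  let r := K0.orderEmbOfFin (mem_powersetCard.1 hK0).2
  have hcolex : ∀ j : Fin k, ∃ l : Fin L, ∀ i, A (r i) (col (gi j) l) = H i j := by
    intro j
    have hg : K (gi j) = K0 := (mem_filter.1 (hGs (orderEmbOfFin_mem _ _ _))).2
    let t : Finset (Fin n) := (univ.filter (fun i => H i j = true)).image r
    have ht : t ⊆ K (gi j) := by
      rw [hg]
      intro x hx
      obtain ⟨i, -, rfl⟩ := mem_image.1 hx
      exact orderEmbOfFin_mem _ _ _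
    obtain ⟨u, hu, hut⟩ := hKsh (gi j) ht
    obtain ⟨l, -, rfl⟩ := mem_image.1 hu
    refine ⟨l, fun i => ?_⟩
    have hiK : r i ∈ K0 := orderEmbOfFin_mem _ _ _
    have hiR : r i ∈ R := (mem_powersetCard.1 hK0).1 hiK
    have hii := Finset.ext_iff.1 hut (r i)
    rw [hg] at hii
    simp only [mem_inter, hiK, true_and, pat, mem_filter, hiR, t, mem_image, mem_univ,
      EmbeddingLike.apply_eq_iff_eq, exists_eq_right] at hii
    revert hii
    cases A (r i) (col (gi j) l) <;> cases H i j <;> simp
  choose l hl using hcolex
  refine ⟨(fun i => r i, fun j => col (gi j) (l j)), ?_, ?_, ?_⟩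
  · simp only [copySet, mem_filter, mem_univ, true_and]
    refine ⟨r.strictMono, ?_, fun i j => hl j i⟩
    intro a b hab
    apply e.strictMono
    change (gi a).val * L + (l a).val < (gi b).val * L + (l b).val
    have h1 : (gi a).val + 1 ≤ (gi b).val := gi.strictMono hab
    have h2 : ((gi a).val + 1) * L ≤ (gi b).val * L := Nat.mul_le_mul_right _ h1
    have h3 := (l a).isLt
    rw [Nat.add_mul, one_mul] at h2
    omega
  · exact fun i => (mem_powersetCard.1 hK0).1 (orderEmbOfFin_mem _ _ _)
  · exact fun j => hcolS _ _

/-- Block tuples from which a pairwise far selection can be made. -/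
noncomputable def goodBlocks (A : Fin n → Fin n → Bool) (Z L j : ℕ) :
    Finset (Fin j → Fin L → Fin n) :=
  univ.filter (fun b => ∃ sel : Fin j → Fin L,
    ∀ a a', a ≠ a' → n < Z * colDist A (b a (sel a)) (b a' (sel a')))

/-- Failure of a small cover gives many block tuples with pairwise far selections. -/
theorem goodBlocks_card (A : Fin n → Fin n → Bool) (Z L m : ℕ)
    (hno : ∀ Cs : Finset (Fin n), Cs.card < m →
      n < Z * (univ.filter (fun α => ∀ c ∈ Cs, n < Z * colDist A α c)).card)
    (q : ℕ) (hq : 2 * m * ((n - n / Z - 1) ^ L) ≤ n ^ L) :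
    q ≤ m → (2 * m - q) * (n ^ L) ^ q ≤ 2 * m * (goodBlocks A Z L q).card := by
  induction q with
  | zero =>
    intro _
    have : (goodBlocks A Z L 0).card = 1 := by
      rw [goodBlocks, filter_true_of_mem]
      · simp
      · intro b _
        exact ⟨fun a => a.elim0, fun a => a.elim0⟩
    simp [this]
  | succ q ih =>
    intro hqm
    have ih := ih (by omega)
    let ext : (Σ _ : Fin q → Fin L → Fin n, Fin L → Fin n) → (Fin (q + 1) → Fin L → Fin n) :=
      fun p => Fin.snoc p.1 p.2
    let T := (goodBlocks A Z L q).sigma (fun b =>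
      univ.filter (fun w : Fin L → Fin n => (Fin.snoc b w : Fin (q + 1) → Fin L → Fin n)
        ∈ goodBlocks A Z L (q + 1)))
    have hT : T.card ≤ (goodBlocks A Z L (q + 1)).card := by
      refine card_le_card_of_injOn ext ?_ ?_
      · intro p hp
        exact (mem_filter.1 (mem_sigma.1 hp).2).2
      · intro p _ p' _ h
        obtain ⟨b, w⟩ := p
        obtain ⟨b', w'⟩ := p'
        have h1 := congrArg Fin.init h
        have h2 := congrFun h (Fin.last q)
        simp only [ext, Fin.init_snoc] at h1
        simp only [ext, Fin.snoc_last] at h2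
        subst h1 h2
        rfl
    have hb : ∀ b ∈ goodBlocks A Z L q, n ^ L - (n - n / Z - 1) ^ L ≤
        (univ.filter (fun w : Fin L → Fin n => (Fin.snoc b w : Fin (q + 1) → Fin L → Fin n)
          ∈ goodBlocks A Z L (q + 1))).card := by
      intro b hbmem
      obtain ⟨sel, hsel⟩ := (mem_filter.1 hbmem).2
      let Cs := (univ : Finset (Fin q)).image (fun a => b a (sel a))
      let V := univ.filter (fun α => ∀ c ∈ Cs, n < Z * colDist A α c)
      have hCs : Cs.card < m := lt_of_le_of_lt card_image_le (by simp; omega)
      have hV : n / Z + 1 ≤ V.card := by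
        have := hno Cs hCs
        by_contra hh
        have h5 : Z * V.card ≤ n :=
          (Nat.mul_le_mul_left Z (show V.card ≤ n / Z by omega)).trans (Nat.mul_div_le n Z)
        exact absurd this (not_lt.2 h5)
      have hcompl : (univ.filter (fun w : Fin L → Fin n => ∀ l, w l ∉ V)).card
          = (n - V.card) ^ L := by
        have : (univ.filter (fun w : Fin L → Fin n => ∀ l, w l ∉ V))
            = Fintype.piFinset (fun _ : Fin L => univ \ V) := by
          ext w
          simp [Fintype.mem_piFinset]
        rw [this, Fintype.card_piFinset]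
        simp [card_sdiff]
      have hsub : univ \ (univ.filter (fun w : Fin L → Fin n => ∀ l, w l ∉ V)) ⊆
          univ.filter (fun w : Fin L → Fin n => (Fin.snoc b w : Fin (q + 1) → Fin L → Fin n)
            ∈ goodBlocks A Z L (q + 1)) := by
        intro w hw
        simp only [mem_sdiff, mem_univ, true_and, mem_filter, not_forall, not_not] at hw
        obtain ⟨l, hl⟩ := hw
        have hl' := (mem_filter.1 hl).2
        simp only [mem_filter, mem_univ, true_and, goodBlocks]
        refine ⟨Fin.snoc sel l, ?_⟩
        intro a a' hne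
        induction a using Fin.lastCases with
        | last =>
          induction a' using Fin.lastCases with
          | last => exact absurd rfl hne
          | cast a' =>
            simpa using hl' _ (mem_image.2 ⟨a', mem_univ _, rfl⟩)
        | cast a =>
          induction a' using Fin.lastCases with
          | last =>
            rw [colDist_comm]
            simpa using hl' _ (mem_image.2 ⟨a, mem_univ _, rfl⟩)
          | cast a' =>
            simpa using hsel a a' (fun h => hne (by rw [h]))
      have := card_le_card hsub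
      rw [card_sdiff_of_subset (subset_univ _), hcompl] at this
      simp only [card_univ, Fintype.card_fun, Fintype.card_fin] at this
      have hmono : (n - V.card) ^ L ≤ (n - n / Z - 1) ^ L := Nat.pow_le_pow_left (by omega) _
      omega
    have hsum : (goodBlocks A Z L q).card * (n ^ L - (n - n / Z - 1) ^ L)
        ≤ (goodBlocks A Z L (q + 1)).card := by
      refine le_trans ?_ hT
      rw [card_sigma, ← smul_eq_mul, ← sum_const]
      exact sum_le_sum hb
    obtain ⟨g, hg⟩ : ∃ g, g = (goodBlocks A Z L q).card := ⟨_, rfl⟩
    obtain ⟨N, hN⟩ : ∃ N, N = n ^ L := ⟨_, rfl⟩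
    obtain ⟨B, hB⟩ : ∃ B, B = (n - n / Z - 1) ^ L := ⟨_, rfl⟩
    rw [← hg, ← hN, ← hB] at hsum
    rw [← hN, ← hg] at ih
    rw [← hN, ← hB] at hq
    rw [← hN, pow_succ]
    have hgle : g ≤ N ^ q := by
      rw [hg, hN]
      refine (card_le_univ _).trans (le_of_eq ?_)
      simp
    calc (2 * m - (q + 1)) * (N ^ q * N)
        = (2 * m - q) * N ^ q * N - N ^ q * N := by
          rw [show 2 * m - (q + 1) = (2 * m - q) - 1 by omega, Nat.sub_mul, one_mul, mul_assoc]
      _ ≤ 2 * m * g * N - g * (2 * m * B) := by
          exact le_trans (Nat.sub_le_sub_right (Nat.mul_le_mul_right N ih) (N ^ q * N))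
            (Nat.sub_le_sub_left (Nat.mul_le_mul hgle hq) _)
      _ = 2 * m * (g * (N - B)) := by
          rw [Nat.mul_sub, Nat.mul_sub]
          ring_nf
      _ ≤ 2 * m * (goodBlocks A Z L (q + 1)).card := Nat.mul_le_mul_left _ hsum

end Vale.Agent.P037
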