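import Vale.Agent.P037.Cover

namespace Vale.Agent.P037

open Finset
open scoped Classical

variable {n k : ℕ}

theorem pow_add_first (a v : ℕ) : ∀ Z : ℕ, a ^ Z + Z * a ^ (Z - 1) * v ≤ (a + v) ^ Z
  | 0 => by simp
  | Z + 1 => by
    have ih := pow_add_first a v Z
    have h2 : (a ^ Z + Z * a ^ (Z - 1) * v) * (a + v) ≤ (a + v) ^ (Z + 1) := by
      rw [pow_succ]
      exact Nat.mul_le_mul_right _ ih
    refine le_trans ?_ h2
    rcases Z with _ | Z
    · simp
    · simp only [Nat.add_sub_cancel]
      rw [pow_succ]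
      ring_nf
      omega

/-- Missing a set of relative size more than `1/Z` in `Z * e` trials has probability
at most `2 ^ (-e)`. -/
theorem miss_pow (n Z e : ℕ) (hZ : 1 ≤ Z) :
    2 ^ e * (n - n / Z - 1) ^ (Z * e) ≤ n ^ (Z * e) := by
  have h : 2 * (n - n / Z - 1) ^ Z ≤ n ^ Z := by
    rcases Nat.eq_zero_or_pos (n - n / Z - 1) with h0 | hpos
    · simp [h0, zero_pow (by omega : Z ≠ 0)]
    · obtain ⟨a, ha⟩ : ∃ a, a = n - n / Z - 1 := ⟨_, rfl⟩
      rw [← ha] at hpos ⊢
      have hn : a + (n / Z + 1) = n := by omega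
      have h1 := pow_add_first a (n / Z + 1) Z
      rw [hn] at h1
      have h2 : a ≤ Z * (n / Z + 1) := by
        have h3 := Nat.div_add_mod n Z
        have h4 := Nat.mod_lt n (show Z > 0 by omega)
        rw [Nat.mul_add, mul_one]
        have h6 : (0 : ℕ) ≤ n / Z := Nat.zero_le _
        have h7 : a ≤ n := Nat.le.intro hn
        omega
      have h5 : a ^ Z ≤ Z * a ^ (Z - 1) * (n / Z + 1) := by
        calc a ^ Z = a ^ (Z - 1) * a := by rw [← pow_succ]; congr 1; omega
          _ ≤ a ^ (Z - 1) * (Z * (n / Z + 1)) := Nat.mul_le_mul_left _ h2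
          _ = _ := by ring
      omega
  rw [pow_mul, pow_mul, ← mul_pow]
  exact Nat.pow_le_pow_left h _

theorem agree_all_card (A : Fin n → Fin n → Bool) (Z e : ℕ) (hZ : 1 ≤ Z) (a b : Fin n)
    (h : n < Z * colDist A a b) :
    2 ^ e * (univ.filter (fun r : Fin (Z * e) → Fin n => ∀ i, A (r i) a = A (r i) b)).card
      ≤ n ^ (Z * e) := by
  have he : (univ.filter (fun r : Fin (Z * e) → Fin n => ∀ i, A (r i) a = A (r i) b))
      = Fintype.piFinset (fun _ : Fin (Z * e) => univ.filter (fun x => A x a = A x b)) := by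
    ext r
    simp [Fintype.mem_piFinset]
  have hc : (univ.filter (fun x : Fin n => A x a = A x b)).card + colDist A a b = n := by
    unfold colDist
    rw [← card_union_of_disjoint]
    · rw [← filter_or]
      simp [em]
    · rw [disjoint_filter]
      intro x _ h1 h2
      exact h2 h1
  have hd : n / Z + 1 ≤ colDist A a b := by
    by_contra hh
    have h5 : Z * colDist A a b ≤ n :=
      (Nat.mul_le_mul_left Z (show colDist A a b ≤ n / Z by omega)).trans (Nat.mul_div_le n Z)
    omega
  rw [he, Fintype.card_piFinset, prod_const, card_univ, Fintype.card_fin]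
  exact (Nat.mul_le_mul_left _ (Nat.pow_le_pow_left (by omega) _)).trans (miss_pow n Z e hZ)

set_option maxHeartbeats 1000000 in
/-- Few ordered copies imply a small cover of almost all columns by Hamming balls. -/
theorem cover_or_copies [NeZero n] (hk : 1 ≤ k) (H : Fin k → Fin k → Bool)
    (A : Fin n → Fin n → Bool) (Z b : ℕ) (hZ : 1 ≤ Z)
    (hb : k * (Z * (2 * b + 1) + 1) ^ k * ((Z * (2 * b + 1) + 1) ^ k + 1) ≤ 2 ^ b) :
    (∃ Cs : Finset (Fin n), Cs.card < 2 ^ b ∧
      Z * (univ.filter (fun α => ∀ c ∈ Cs, n < Z * colDist A α c)).card ≤ n) ∨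
    n ^ (2 * k) ≤ 4 * (Z * (2 * b + 1)) ^ k * (2 ^ b * (Z * (b + 1))) ^ k * copyCount H A := by
  refine or_iff_not_imp_left.2 (fun hne => ?_)
  push Not at hne
  obtain ⟨m, hm⟩ : ∃ m, m = 2 ^ b := ⟨_, rfl⟩
  obtain ⟨L, hLdef⟩ : ∃ L, L = Z * (b + 1) := ⟨_, rfl⟩
  obtain ⟨s, hs⟩ : ∃ s, s = Z * (2 * b + 1) := ⟨_, rfl⟩
  rw [← hm, ← hLdef, ← hs]
  rw [← hm, ← hs] at hb
  rw [← hm] at hne
  have hmpos : 1 ≤ m := hm ▸ Nat.one_le_two_pow
  have hN : 0 < n := NeZero.pos n
  have hqL : 2 * m * (n - n / Z - 1) ^ L ≤ n ^ L := by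
    have := miss_pow n Z (b + 1) hZ
    rw [hm, hLdef, ← pow_succ']
    exact this
  have hG := goodBlocks_card A Z L m hne m hqL le_rfl
  let G := goodBlocks A Z L m
  have hGc : (n ^ L) ^ m ≤ 2 * G.card := by
    rw [show 2 * m - m = m by omega] at hG
    exact Nat.le_of_mul_le_mul_left (by rw [← mul_assoc, mul_comm m 2]; exact hG) hmpos
  let sel : (Fin m → Fin L → Fin n) → Finset (Fin n) := fun B =>
    if h : ∃ sel : Fin m → Fin L,
      ∀ a a', a ≠ a' → n < Z * colDist A (B a (sel a)) (B a' (sel a'))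
    then univ.image (fun a => B a (h.choose a)) else ∅
  have hsel : ∀ B ∈ G, m ≤ (sel B).card ∧ (∀ y ∈ sel B, ∀ y' ∈ sel B, y ≠ y' →
      n < Z * colDist A y y') ∧ ∀ y ∈ sel B, ∃ p : Fin m × Fin L, B p.1 p.2 = y := by
    intro B hB
    have h : ∃ sel : Fin m → Fin L,
      ∀ a a', a ≠ a' → n < Z * colDist A (B a (sel a)) (B a' (sel a')) := (mem_filter.1 hB).2
    simp only [sel, dif_pos h]
    have hspec := h.choose_spec
    refine ⟨?_, ?_, ?_⟩
    · rw [card_image_of_injective]
      · simp
      · intro a a' haa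
        by_contra hneq
        have := hspec a a' hneq
        simp only at haa
        rw [haa, colDist_self] at this
        simp at this
    · intro y hy y' hy' hyy
      obtain ⟨a, -, rfl⟩ := mem_image.1 hy
      obtain ⟨a', -, rfl⟩ := mem_image.1 hy'
      exact hspec a a' (fun e => hyy (by rw [e]))
    · intro y hy
      obtain ⟨a, -, rfl⟩ := mem_image.1 hy
      exact ⟨(a, h.choose a), rfl⟩
  let badR : Finset (Fin n) → Finset (Fin s → Fin n) := fun S => univ.filter (fun r =>
    ∃ y ∈ S, ∃ y' ∈ S, y ≠ y' ∧ ∀ i, A (r i) y = A (r i) y')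
  have hbadR : ∀ B ∈ G, 2 * (badR (sel B)).card ≤ n ^ s := by
    intro B hB
    obtain ⟨-, hfar, -⟩ := hsel B hB
    have hsm : (sel B).card ≤ m := by
      simp only [sel]
      split
      · exact card_image_le.trans (by simp)
      · simp
    have hsub : badR (sel B) ⊆ ((sel B) ×ˢ (sel B)).biUnion (fun q =>
        if q.1 ≠ q.2 then univ.filter (fun r : Fin s → Fin n => ∀ i, A (r i) q.1 = A (r i) q.2)
        else ∅) := by
      intro r hr
      simp only [badR, mem_filter, mem_univ, true_and] at hr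
      obtain ⟨y, hy, y', hy', hne', hr⟩ := hr
      simp only [mem_biUnion, mem_product]
      exact ⟨(y, y'), ⟨hy, hy'⟩, by simp [hne', hr]⟩
    have hterm : ∀ q ∈ (sel B) ×ˢ (sel B), 2 ^ (2 * b + 1) * (if q.1 ≠ q.2 then
        univ.filter (fun r : Fin s → Fin n => ∀ i, A (r i) q.1 = A (r i) q.2)
        else ∅).card ≤ n ^ s := by
      intro q hq
      split
      · next hne' =>
        subst hs
        exact agree_all_card A Z (2 * b + 1) hZ _ _
          (hfar _ (mem_product.1 hq).1 _ (mem_product.1 hq).2 hne')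
      · simp
    have h1 := (card_le_card hsub).trans card_biUnion_le
    have h2 := Finset.sum_le_card_nsmul _ _ _ hterm
    rw [← mul_sum, card_product, smul_eq_mul] at h2
    have h3 : (sel B).card * (sel B).card * n ^ s ≤ m * m * n ^ s :=
      Nat.mul_le_mul_right _ (Nat.mul_le_mul hsm hsm)
    have h4 : 2 ^ (2 * b + 1) = 2 * (m * m) := by rw [hm, pow_succ, two_mul b, pow_add]; ring
    have h5 := ((Nat.mul_le_mul_left (2 * (m * m)) h1).trans (h4 ▸ h2)).trans h3
    rw [mul_comm 2 (m * m), mul_assoc] at h5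
    exact Nat.le_of_mul_le_mul_left h5 (Nat.mul_pos hmpos hmpos)
  let P := G.sigma (fun B => univ \ badR (sel B))
  have hP : (n ^ L) ^ m * n ^ s ≤ 4 * P.card := by
    rw [card_sigma]
    calc (n ^ L) ^ m * n ^ s ≤ 2 * G.card * n ^ s := Nat.mul_le_mul_right _ hGc
      _ = ∑ B ∈ G, 2 * n ^ s := by rw [sum_const, smul_eq_mul]; ring
      _ ≤ ∑ B ∈ G, 4 * (univ \ badR (sel B)).card := by
          refine sum_le_sum (fun B hB => ?_)
          have := hbadR B hB
          rw [card_sdiff_of_subset (subset_univ _)]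
          simp only [card_univ, Fintype.card_fun, Fintype.card_fin]
          omega
      _ = _ := by rw [mul_sum]
  let cR : (Fin k → Fin n) → Finset (Fin s → Fin n) := fun c =>
    univ.filter (fun r => ∀ i, ∃ j, r j = c i)
  let cB : (Fin k → Fin n) → Finset (Fin m × Fin L → Fin n) := fun c =>
    univ.filter (fun B => ∀ i, ∃ j, B j = c i)
  have hPsub : P.card ≤ ∑ p ∈ copySet H A, (cB p.2).card * (cR p.1).card := by
    simp_rw [← card_product]
    refine le_trans ?_ card_biUnion_le
    refine card_le_card_of_injOn (fun q => (Function.uncurry q.1, q.2)) ?_ ?_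
    · rintro ⟨B, r⟩ hq
      obtain ⟨hB, hr⟩ := mem_sigma.1 hq
      simp only [mem_sdiff, mem_univ, true_and, badR, mem_filter] at hr
      obtain ⟨hc, -, hin⟩ := hsel B hB
      obtain ⟨p, hp, hp1, hp2⟩ := copy_of_patterns hk H A (univ.image r) (sel B) s
        (card_image_le.trans (by simp)) (by
          intro y hy y' hy' hyy
          by_contra hneq
          apply hr
          refine ⟨y, hy, y', hy', hneq, fun i => ?_⟩
          have := Finset.ext_iff.1 hyy (r i)
          simp only [mem_filter, mem_image, mem_univ, true_and, exists_apply_eq_apply] at this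
          revert this
          cases A (r i) y <;> cases A (r i) y' <;> simp) (hb.trans hc)
      simp only [mem_coe, mem_biUnion, mem_product]
      refine ⟨p, hp, ?_, ?_⟩
      · simp only [cB, mem_filter, mem_univ, true_and]
        intro j
        exact hin _ (hp2 j)
      · simp only [cR, mem_filter, mem_univ, true_and]
        intro i
        obtain ⟨a, -, ha⟩ := mem_image.1 (hp1 i)
        exact ⟨a, ha⟩
    · rintro ⟨B, r⟩ _ ⟨B', r'⟩ _ h
      simp only [Prod.mk.injEq] at h
      obtain ⟨h1, h2⟩ := h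
      have : B = B' := by
        funext a l
        exact congrFun h1 (a, l)
      subst this h2
      rfl
  have hmain : (∑ p ∈ copySet H A, (cB p.2).card * (cR p.1).card) * n ^ (2 * k) ≤
      copyCount H A * ((m * L) ^ k * n ^ (m * L) * (s ^ k * n ^ s)) := by
    rw [sum_mul]
    refine (Finset.sum_le_card_nsmul _ _ _ (fun p hp => ?_)).trans
      (le_of_eq (by rw [smul_eq_mul, card_copySet]))
    simp only [copySet, mem_filter, mem_univ, true_and] at hp
    have h1 := card_contains_mul (ι := Fin m × Fin L) p.2 hp.2.1.injective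
    have h2 := card_contains_mul (ι := Fin s) p.1 hp.1.injective
    simp only [Fintype.card_prod, Fintype.card_fin] at h1 h2
    calc (cB p.2).card * (cR p.1).card * n ^ (2 * k)
        = ((cB p.2).card * n ^ k) * ((cR p.1).card * n ^ k) := by
          rw [two_mul k, pow_add]; ring
      _ ≤ _ := Nat.mul_le_mul (by convert h1 using 4) (by convert h2 using 4)
  rw [← pow_mul, mul_comm L m] at hP
  have h := Nat.mul_le_mul_right (n ^ (2 * k)) (hP.trans (Nat.mul_le_mul_left 4 hPsub))
  rw [mul_assoc 4] at h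
  have h' := h.trans (Nat.mul_le_mul_left 4 hmain)
  have hfin : (n ^ (m * L) * n ^ s) * n ^ (2 * k) ≤
      (n ^ (m * L) * n ^ s) * (4 * s ^ k * (m * L) ^ k * copyCount H A) :=
    h'.trans (le_of_eq (by ring))
  exact Nat.le_of_mul_le_mul_left hfin (by positivity)

end Vale.Agent.P037
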