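import Mathlib

namespace Vale.Agent.P037

/-- The number of ordered copies of the binary `k × k` pattern `H` in the binary `n × n`
matrix `A`: pairs of increasing row and column choices on which `A` agrees with `H`. -/
noncomputable def copyCount {n k : ℕ} (H : Fin k → Fin k → Bool)
    (A : Fin n → Fin n → Bool) : ℕ :=
  Nat.card {p : (Fin k → Fin n) × (Fin k → Fin n) //
    StrictMono p.1 ∧ StrictMono p.2 ∧ ∀ i j, A (p.1 i) (p.2 j) = H i j}

/-- The number of entries in which two binary `n × n` matrices differ. -/
noncomputable def diffCount {n : ℕ} (A B : Fin n → Fin n → Bool) : ℕ :=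
  Nat.card {p : Fin n × Fin n // A p.1 p.2 ≠ B p.1 p.2}

end Vale.Agent.P037
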