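import Vale.Agent.P037.Count

namespace Vale.Agent.P037

open Finset
open scoped Classical

variable {n : ℕ}

/-- The index of the interval containing a column, among `p` near-equal intervals. -/
def ivl (p : ℕ) (a : Fin n) : ℕ := a.val * p / n

theorem ivl_lt {p : ℕ} (hp : 1 ≤ p) (a : Fin n) : ivl p a < p := by
  rw [ivl, Nat.div_lt_iff_lt_mul (by have := a.isLt; omega), mul_comm p n]
  exact Nat.mul_lt_mul_of_pos_right a.isLt hp

theorem ivl_mono (p : ℕ) {a b : Fin n} (h : a ≤ b) : ivl p a ≤ ivl p b :=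
  Nat.div_le_div_right (Nat.mul_le_mul_right _ h)

theorem ivl_div (p M : ℕ) (hM : 1 ≤ M) (a : Fin n) : ivl (p * M) a / M = ivl p a := by
  rw [ivl, ivl, Nat.div_div_eq_div_mul, ← mul_assoc]
  exact Nat.mul_div_mul_right _ _ hM

/-- The size of the interval `I`. -/
theorem ivl_card (p I : ℕ) (hp : 1 ≤ p) (hI : I < p) :
    (univ.filter (fun a : Fin n => ivl p a = I)).card * p ≤ n + p ∧
    n ≤ (univ.filter (fun a : Fin n => ivl p a = I)).card * p + p := by
  obtain ⟨q, rfl⟩ : ∃ q, p = q + 1 := ⟨p - 1, by omega⟩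
  obtain ⟨p, hpdef⟩ : ∃ p, p = q + 1 := ⟨_, rfl⟩
  rw [← hpdef] at hI ⊢
  obtain ⟨lo, hlo⟩ : ∃ lo, lo = (I * n + q) / p := ⟨_, rfl⟩
  obtain ⟨hi, hhi⟩ : ∃ hi, hi = ((I + 1) * n + q) / p := ⟨_, rfl⟩
  have hp : 1 ≤ p := by omega
  have hl1 := Nat.div_add_mod (I * n + q) p
  have hl2 := Nat.mod_lt (I * n + q) (show p > 0 by omega)
  have hh1 := Nat.div_add_mod ((I + 1) * n + q) p
  have hh2 := Nat.mod_lt ((I + 1) * n + q) (show p > 0 by omega)
  rw [← hlo] at hl1
  rw [← hhi] at hh1
  have l1 : I * n ≤ p * lo := by omega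
  have l2 : p * lo ≤ I * n + q := by omega
  have r1 : (I + 1) * n ≤ p * hi := by omega
  have r2 : p * hi ≤ (I + 1) * n + q := by omega
  have e : (I + 1) * n = I * n + n := by ring
  have hle : hi ≤ n := by
    by_contra hc
    have h1 : p * (n + 1) ≤ p * hi := Nat.mul_le_mul_left _ (by omega)
    have h2 : (I + 1) * n ≤ p * n := Nat.mul_le_mul_right _ hI
    rw [mul_add, mul_one] at h1
    omega
  have hlohi : lo ≤ hi := by
    rw [hlo, hhi]
    exact Nat.div_le_div_right (by omega)
  have hset : (univ.filter (fun a : Fin n => ivl p a = I)).card = hi - lo := by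
    rw [← Nat.card_Ico]
    refine card_bij (fun a _ => a.val) ?_ (fun a _ b _ h => Fin.ext h) ?_
    · intro a ha
      replace ha := (mem_filter.1 ha).2
      unfold ivl at ha
      have hn : 0 < n := by have := a.isLt; omega
      have h1 := Nat.div_add_mod (a.val * p) n
      have h2 := Nat.mod_lt (a.val * p) hn
      rw [ha, mul_comm n I] at h1
      rw [mem_Ico]
      constructor
      · by_contra hc
        have h3 : p * (a.val + 1) ≤ p * lo := Nat.mul_le_mul_left _ (by omega)
        rw [mul_add, mul_one, mul_comm p a.val] at h3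
        omega
      · by_contra hc
        have h3 : p * hi ≤ p * a.val := Nat.mul_le_mul_left _ (by omega)
        rw [mul_comm p a.val] at h3
        omega
    · intro i hi'
      rw [mem_Ico] at hi'
      refine ⟨⟨i, by omega⟩, ?_, rfl⟩
      refine mem_filter.2 ⟨mem_univ _, ?_⟩
      unfold ivl
      have h3 : p * lo ≤ p * i := Nat.mul_le_mul_left _ hi'.1
      have h4 : p * (i + 1) ≤ p * hi := Nat.mul_le_mul_left _ hi'.2
      rw [mul_add, mul_one] at h4
      rw [mul_comm p i] at h3 h4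
      refine Nat.div_eq_of_lt_le ?_ ?_
      · show I * n ≤ i * p
        omega
      · show i * p < (I + 1) * n
        omega
  rw [hset]
  obtain ⟨d, rfl⟩ := Nat.exists_eq_add_of_le hlohi
  rw [Nat.add_sub_cancel_left]
  rw [mul_add] at r1 r2
  rw [mul_comm p d] at r1 r2
  omega

theorem sum_range_mul (p M : ℕ) (f : ℕ → ℕ) :
    ∑ J ∈ range (p * M), f J = ∑ I ∈ range p, ∑ i ∈ range M, f (I * M + i) := by
  induction p with
  | zero => simp
  | succ p ih => rw [Nat.succ_mul, sum_range_add, ih, sum_range_succ]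

/-- The letter predicate: `none` matches every column. -/
def Pat (Lt : Fin n → Option (Fin n)) (a : Option (Fin n)) (x : Fin n) : Prop :=
  a = none ∨ Lt x = a

/-- The number of columns of letter `a` in interval `I`. -/
noncomputable def cnt (Lt : Fin n → Option (Fin n)) (p I : ℕ) (a : Option (Fin n)) : ℕ :=
  (univ.filter (fun x => ivl p x = I ∧ Pat Lt a x)).card

theorem cnt_split (Lt : Fin n → Option (Fin n)) (p M I : ℕ) (hM : 1 ≤ M)
    (a : Option (Fin n)) :
    cnt Lt p I a = ∑ i ∈ range M, cnt Lt (p * M) (I * M + i) a := by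
  unfold cnt
  rw [card_eq_sum_card_fiberwise (f := fun x => ivl (p * M) x - I * M) (t := range M)]
  · refine sum_congr rfl (fun i hi => congrArg card ?_)
    ext x
    simp only [mem_filter, mem_univ, true_and]
    have hd := ivl_div p M hM x
    have h1 := Nat.div_add_mod (ivl (p * M) x) M
    have h2 := Nat.mod_lt (ivl (p * M) x) (show M > 0 by omega)
    rw [hd] at h1
    constructor
    · rintro ⟨⟨hI, hP⟩, hi2⟩
      subst hI
      refine ⟨?_, hP⟩
      rw [mul_comm (ivl p x) M] at hi2 ⊢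
      omega
    · rintro ⟨hJ, hP⟩
      have hI : ivl p x = I := by
        rw [← hd, hJ]
        rw [mul_comm I M, Nat.mul_add_div (by omega)]
        have : i / M = 0 := Nat.div_eq_of_lt (mem_range.1 hi)
        omega
      exact ⟨⟨hI, hP⟩, by omega⟩
  · intro x hx
    simp only [mem_coe, mem_filter, mem_univ, true_and] at hx
    have hd := ivl_div p M hM x
    have h1 := Nat.div_add_mod (ivl (p * M) x) M
    have h2 := Nat.mod_lt (ivl (p * M) x) (show M > 0 by omega)
    rw [hd, hx.1, mul_comm M I] at h1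
    simp only [mem_coe, mem_range]
    omega

/-- The sub-intervals in which a letter is thin. -/
noncomputable def thin (Lt : Fin n → Option (Fin n)) (p M I : ℕ) (a : Option (Fin n)) :
    Finset ℕ :=
  (range M).filter (fun i => 2 * M * cnt Lt (p * M) (I * M + i) a < cnt Lt p I a)

/-- A letter is big in an interval. -/
def Big (Lt : Fin n → Option (Fin n)) (p W' I : ℕ) (a : Option (Fin n)) : Prop :=
  n ≤ cnt Lt p I a * p * W'

/-- A letter is stable in an interval under refinement by a factor `M`. -/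
def Stable (Lt : Fin n → Option (Fin n)) (p M W I : ℕ) (a : Option (Fin n)) : Prop :=
  W * (thin Lt p M I a).card ≤ M

theorem sum_cnt_le (Lt : Fin n → Option (Fin n)) (p : ℕ) (Cs : Finset (Fin n)) :
    ∑ I ∈ range p, ∑ c ∈ Cs, cnt Lt p I (some c) ≤ n := by
  simp only [cnt]
  rw [← sum_product', ← card_sigma]
  refine le_of_le_of_eq (card_le_card_of_injOn (fun s => s.2) (t := univ)
    (fun _ _ => mem_univ _) ?_) (by simp)
  rintro ⟨⟨I, c⟩, x⟩ h ⟨⟨I', c'⟩, x'⟩ h' rfl
  simp only [mem_coe, mem_sigma, mem_filter, mem_univ, true_and, Pat, reduceCtorEq,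
    false_or] at h h'
  obtain ⟨-, h1, h2⟩ := h
  obtain ⟨-, h3, h4⟩ := h'
  rw [h1] at h3
  rw [h2] at h4
  simp_all

/-- The energy of the letters with respect to `p` intervals. -/
noncomputable def energy (Lt : Fin n → Option (Fin n)) (Cs : Finset (Fin n)) (p : ℕ) : ℕ :=
  ∑ I ∈ range p, ∑ c ∈ Cs, p * cnt Lt p I (some c) ^ 2

theorem energy_le (Lt : Fin n → Option (Fin n)) (Cs : Finset (Fin n)) (p : ℕ) (hp : 1 ≤ p)
    (hpn : p ≤ n) : energy Lt Cs p ≤ 2 * n ^ 2 := by
  calc energy Lt Cs p ≤ ∑ I ∈ range p, ∑ c ∈ Cs, 2 * n * cnt Lt p I (some c) := by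
        refine sum_le_sum (fun I hI => sum_le_sum (fun c _ => ?_))
        have h1 : cnt Lt p I (some c) * p ≤ n + p := by
          refine le_trans (Nat.mul_le_mul_right _ (card_le_card ?_))
            (ivl_card p I hp (mem_range.1 hI)).1
          intro x hx
          simp only [mem_filter, mem_univ, true_and] at hx ⊢
          exact hx.1
        rw [sq, ← mul_assoc, mul_comm p]
        exact Nat.mul_le_mul_right _ (by omega)
    _ = 2 * n * ∑ I ∈ range p, ∑ c ∈ Cs, cnt Lt p I (some c) := by simp only [mul_sum]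
    _ ≤ 2 * n * n := Nat.mul_le_mul_left _ (sum_cnt_le Lt p Cs)
    _ = _ := by ring

theorem gain_one (Lt : Fin n → Option (Fin n)) (p M W I : ℕ) (hM : 1 ≤ M)
    (a : Option (Fin n)) :
    4 * W * cnt Lt p I a ^ 2 + (if Stable Lt p M W I a then 0 else cnt Lt p I a ^ 2)
      ≤ 4 * W * (M * ∑ i ∈ range M, cnt Lt (p * M) (I * M + i) a ^ 2) := by
  have hsplit := cnt_split Lt p M I hM a
  obtain ⟨c, hc⟩ : ∃ c : ℕ → ℕ, c = fun i => cnt Lt (p * M) (I * M + i) a := ⟨_, rfl⟩
  obtain ⟨C, hC⟩ : ∃ C, C = cnt Lt p I a := ⟨_, rfl⟩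
  have hci : ∀ i, cnt Lt (p * M) (I * M + i) a = c i := fun i => by rw [hc]
  have hcs : (C : ℤ) = ∑ i ∈ range M, (c i : ℤ) := by
    rw [hC, hsplit]
    push_cast
    exact sum_congr rfl (fun i _ => by rw [hci])
  have hid : ∑ i ∈ range M, (2 * M * (c i : ℤ) - 2 * C) ^ 2
      = 4 * M * (M * (∑ i ∈ range M, (c i : ℤ) ^ 2) - (C : ℤ) ^ 2) := by
    simp only [sub_sq, mul_pow, sum_add_distrib, sum_sub_distrib, ← mul_sum, ← sum_mul,
      sum_const, card_range, nsmul_eq_mul, ← hcs]
    ring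
  have hbad : ((thin Lt p M I a).card : ℤ) * (C : ℤ) ^ 2
      ≤ ∑ i ∈ range M, (2 * M * (c i : ℤ) - 2 * C) ^ 2 := by
    refine le_trans ?_ (sum_le_sum_of_subset_of_nonneg
      (show thin Lt p M I a ⊆ range M from filter_subset _ _) (fun i _ _ => sq_nonneg _))
    rw [← nsmul_eq_mul, ← sum_const]
    refine sum_le_sum (fun i hi => ?_)
    have h := (mem_filter.1 hi).2
    rw [hci, ← hC] at h
    have h' : 2 * (M : ℤ) * c i < C := by exact_mod_cast h
    nlinarith
  rw [hid] at hbad
  simp only [hci, ← hC]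
  zify
  have hM0 : (0 : ℤ) < M := by exact_mod_cast hM
  split_ifs with hs
  · push_cast
    have hnn : (0 : ℤ) ≤ (M : ℤ) * (∑ i ∈ range M, (c i : ℤ) ^ 2) - (C : ℤ) ^ 2 := by
      have h0 : (0 : ℤ) ≤ 4 * M * ((M : ℤ) * (∑ i ∈ range M, (c i : ℤ) ^ 2) - (C : ℤ) ^ 2) :=
        hid ▸ sum_nonneg (fun i _ => sq_nonneg _)
      exact nonneg_of_mul_nonneg_right h0 (by positivity)
    have hW : (0 : ℤ) ≤ W := by positivity
    nlinarith
  · unfold Stable at hs
    push Not at hs
    have hs' : (M : ℤ) ≤ W * ((thin Lt p M I a).card : ℤ) := by exact_mod_cast hs.le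
    push_cast
    refine le_of_mul_le_mul_left ?_ hM0
    have h1 : (M : ℤ) * (C : ℤ) ^ 2 ≤ W * ((thin Lt p M I a).card * (C : ℤ) ^ 2) := by
      rw [← mul_assoc]
      exact mul_le_mul_of_nonneg_right hs' (sq_nonneg _)
    have hW : (0 : ℤ) ≤ W := by positivity
    nlinarith

/-- The columns whose letter is big and unstable. -/
noncomputable def lost (Lt : Fin n → Option (Fin n)) (Cs : Finset (Fin n)) (p M W W' : ℕ) : ℕ :=
  ∑ I ∈ range p, ∑ c ∈ Cs,
    if Big Lt p W' I (some c) ∧ ¬ Stable Lt p M W I (some c) then cnt Lt p I (some c) else 0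

theorem gain (Lt : Fin n → Option (Fin n)) (Cs : Finset (Fin n)) (p M W W' : ℕ)
    (hM : 1 ≤ M) :
    4 * W * W' * energy Lt Cs p + n * lost Lt Cs p M W W'
      ≤ 4 * W * W' * energy Lt Cs (p * M) := by
  unfold energy lost
  rw [sum_range_mul]
  simp only [mul_sum, ← sum_add_distrib]
  refine sum_le_sum (fun I _ => ?_)
  rw [sum_comm (s := range M)]
  refine sum_le_sum (fun c _ => ?_)
  have hg := Nat.mul_le_mul_left (p * W') (gain_one Lt p M W I hM (some c))
  simp only [mul_sum, mul_add] at hg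
  refine le_trans ?_ (le_trans hg (le_of_eq (sum_congr rfl (fun i _ => by ring))))
  refine Nat.add_le_add (le_of_eq (by ring)) ?_
  split_ifs with h1 h2 h2
  · exact absurd h2 h1.2
  · unfold Big at h1
    calc n * cnt Lt p I (some c)
        ≤ cnt Lt p I (some c) * p * W' * cnt Lt p I (some c) := Nat.mul_le_mul_right _ h1.1
      _ = _ := by ring
  · simp
  · simp

/-- Among enough nested scales one has few lost columns. -/
theorem exists_stable_scale (Lt : Fin n → Option (Fin n)) (Cs : Finset (Fin n))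
    (P Mf : ℕ → ℕ) (W W' K R : ℕ) (hK : 1 ≤ K) (hn : 1 ≤ n)
    (hP : ∀ j, 1 ≤ P j) (hMf : ∀ j, 1 ≤ Mf j) (hstep : ∀ j, P (j + 1) = P j * Mf j)
    (hPn : P R ≤ n) (hR : K * (4 * W * W') * 2 < R) :
    ∃ j < R, K * lost Lt Cs (P j) (Mf j) W W' ≤ n := by
  by_contra hne
  push Not at hne
  have h : ∀ j ≤ R, j * n ^ 2 ≤ K * (4 * W * W' * energy Lt Cs (P j)) := by
    intro j
    induction j with
    | zero => simp
    | succ j ih =>
      intro hj
      have h1 := gain Lt Cs (P j) (Mf j) W W' (hMf j)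
      rw [← hstep] at h1
      have h2 := hne j (by omega)
      calc (j + 1) * n ^ 2 = j * n ^ 2 + n * n := by ring
        _ ≤ K * (4 * W * W' * energy Lt Cs (P j)) + n * (K * lost Lt Cs (P j) (Mf j) W W') :=
            Nat.add_le_add (ih (by omega)) (Nat.mul_le_mul_left _ h2.le)
        _ = K * (4 * W * W' * energy Lt Cs (P j) + n * lost Lt Cs (P j) (Mf j) W W') := by ring
        _ ≤ _ := Nat.mul_le_mul_left _ h1
  have h1 := (h R le_rfl).trans (Nat.mul_le_mul_left K
    (Nat.mul_le_mul_left (4 * W * W') (energy_le Lt Cs (P R) (hP R) hPn)))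
  have h2 : R * n ^ 2 ≤ (K * (4 * W * W') * 2) * n ^ 2 := h1.trans (le_of_eq (by ring))
  have := Nat.le_of_mul_le_mul_right h2 (by positivity)
  omega

end Vale.Agent.P037
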