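import Vale.Agent.P037.Core

namespace Vale.Agent.P037

open Finset
open scoped Classical

variable {n k : ℕ}

theorem exists_b0 (k : ℕ) : ∃ b0 : ℕ, ∀ z : ℕ,
    k * (2 ^ z * (2 * (4 * k * z + b0) + 1) + 1) ^ k *
      ((2 ^ z * (2 * (4 * k * z + b0) + 1) + 1) ^ k + 1) ≤ 2 ^ (4 * k * z + b0) := by
  rcases Nat.eq_zero_or_pos k with rfl | hk
  · exact ⟨0, fun z => by simp⟩
  have ht := tendsto_pow_const_div_const_pow_of_one_lt (2 * k) (show (1 : ℝ) < 2 by norm_num)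
  obtain ⟨d, hd⟩ : ∃ d : ℕ, d = 4 * k * (8 * k) ^ (2 * k) := ⟨_, rfl⟩
  have hdpos : (0 : ℝ) < d := by
    rw [hd]
    positivity
  have hev := ht.eventually (eventually_le_nhds (show (0 : ℝ) < 1 / d by positivity))
  obtain ⟨x, hx1, hx2⟩ := (hev.and (Filter.eventually_ge_atTop 1)).exists
  obtain ⟨b0, rfl⟩ : ∃ b0, x = b0 + 1 := ⟨x - 1, by omega⟩
  refine ⟨b0, fun z => ?_⟩
  rw [div_le_div_iff₀ (by positivity) hdpos, one_mul] at hx1
  have hxn : (b0 + 1) ^ (2 * k) * (4 * k * (8 * k) ^ (2 * k)) ≤ 2 ^ (b0 + 1) := by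
    rw [← hd]
    exact_mod_cast hx1
  obtain ⟨s, hs⟩ : ∃ s, s = 2 ^ z * (2 * (4 * k * z + b0) + 1) + 1 := ⟨_, rfl⟩
  rw [← hs]
  have hz : z + 1 ≤ 2 ^ z := Nat.lt_two_pow_self
  have h1 : s ≤ (2 ^ z) ^ 2 * (8 * k * (b0 + 1)) := by
    have h2 : 2 * (4 * k * z + b0) + 2 ≤ 8 * k * (b0 + 1) * (z + 1) := by
      have h4 : 8 * k * z ≤ 8 * k * z * (b0 + 1) := Nat.le_mul_of_pos_right _ (by omega)
      have h5 : b0 + 1 ≤ k * (b0 + 1) := Nat.le_mul_of_pos_left _ hk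
      nlinarith
    have h3 : 1 ≤ 2 ^ z := Nat.one_le_two_pow
    calc s ≤ 2 ^ z * (2 * (4 * k * z + b0) + 2) := by rw [hs]; nlinarith
      _ ≤ 2 ^ z * (8 * k * (b0 + 1) * (z + 1)) := Nat.mul_le_mul_left _ h2
      _ ≤ 2 ^ z * (8 * k * (b0 + 1) * 2 ^ z) :=
          Nat.mul_le_mul_left _ (Nat.mul_le_mul_left _ hz)
      _ = _ := by ring
  have h4 : 2 * (k * s ^ (2 * k) * 2) ≤ 2 * 2 ^ (4 * k * z + b0) := by
    calc 2 * (k * s ^ (2 * k) * 2)
        ≤ 2 * (k * ((2 ^ z) ^ 2 * (8 * k * (b0 + 1))) ^ (2 * k) * 2) := by gcongr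
      _ = 2 ^ (4 * k * z) * ((b0 + 1) ^ (2 * k) * (4 * k * (8 * k) ^ (2 * k))) := by
          rw [mul_pow _ (8 * k * (b0 + 1)), ← pow_mul, ← pow_mul, mul_pow (8 * k) (b0 + 1),
            show z * (2 * (2 * k)) = 4 * k * z by ring]
          ring
      _ ≤ 2 ^ (4 * k * z) * 2 ^ (b0 + 1) := Nat.mul_le_mul_left _ hxn
      _ = _ := by rw [← pow_add, ← pow_succ']; ring_nf
  have h5 : s ^ k + 1 ≤ 2 * s ^ k := by
    have : 1 ≤ s ^ k := Nat.one_le_pow _ _ (by omega)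
    omega
  calc k * s ^ k * (s ^ k + 1) ≤ k * s ^ k * (2 * s ^ k) := Nat.mul_le_mul_left _ h5
    _ = k * s ^ (2 * k) * 2 := by rw [two_mul k, pow_add]; ring
    _ ≤ _ := by omega

theorem copy_pos_of_far (hn : 1 ≤ n) (H : Fin k → Fin k → Bool) (A : Fin n → Fin n → Bool)
    (E : ℕ) (far : ∀ B : Fin n → Fin n → Bool, copyCount H B = 0 → n ^ 2 ≤ E * diffCount A B) :
    1 ≤ copyCount H A := by
  by_contra h
  have h1 := far A (by omega)
  have h2 : diffCount A A = 0 := by simp [diffCount]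
  rw [h2, mul_zero] at h1
  have : 0 < n ^ 2 := by positivity
  omega

/-- A logarithmic bound for the failure of the cover. -/
theorem cover_log [NeZero n] (hk : 1 ≤ k) (H : Fin k → Fin k → Bool) (A : Fin n → Fin n → Bool)
    (b0 : ℕ)
    (hb0 : ∀ z : ℕ, k * (2 ^ z * (2 * (4 * k * z + b0) + 1) + 1) ^ k *
      ((2 ^ z * (2 * (4 * k * z + b0) + 1) + 1) ^ k + 1) ≤ 2 ^ (4 * k * z + b0))
    (z : ℕ) :
    (∃ (Cs : Finset (Fin n)) (L : Fin n → Option (Fin n)), Cs.card ≤ 2 ^ (4 * k * z + b0) ∧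
      (∀ x c, L x = some c → c ∈ Cs) ∧ (∀ x c, L x = some c → 2 ^ z * colDist A x c ≤ n) ∧
      2 ^ z * (univ.filter (fun x => L x = none)).card ≤ n) ∨
    n ^ (2 * k) ≤ 2 ^ (2 + k * (2 * z + 4 * (4 * k * z + b0) + 1)) * copyCount H A := by
  obtain ⟨b, hb⟩ : ∃ b, b = 4 * k * z + b0 := ⟨_, rfl⟩
  rw [← hb]
  rcases cover_or_copies hk H A (2 ^ z) b Nat.one_le_two_pow (hb ▸ hb0 z) with
    ⟨Cs, hc, hu⟩ | h
  · left
    refine ⟨Cs, fun x => if h : ∃ c ∈ Cs, 2 ^ z * colDist A x c ≤ n then some h.choose else none,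
      hc.le, ?_, ?_, ?_⟩
    · intro x c hx
      simp only at hx
      split at hx
      · next h => cases hx; exact h.choose_spec.1
      · simp at hx
    · intro x c hx
      simp only at hx
      split at hx
      · next h => cases hx; exact h.choose_spec.2
      · simp at hx
    · refine le_trans (Nat.mul_le_mul_left _ (card_le_card ?_)) hu
      intro x hx
      simp only [mem_filter, mem_univ, true_and, dite_eq_right_iff, reduceCtorEq] at hx
      simp only [mem_filter, mem_univ, true_and]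
      intro c hc'
      by_contra hle
      exact hx ⟨c, hc', not_lt.1 hle⟩
  · right
    refine h.trans (Nat.mul_le_mul_right _ ?_)
    have h1 : 2 * b + 1 ≤ 2 ^ (2 * b + 1) := Nat.lt_two_pow_self.le
    have h2 : b + 1 ≤ 2 ^ b := Nat.lt_two_pow_self
    calc 4 * (2 ^ z * (2 * b + 1)) ^ k * (2 ^ b * (2 ^ z * (b + 1))) ^ k
        ≤ 2 ^ 2 * (2 ^ z * 2 ^ (2 * b + 1)) ^ k * (2 ^ b * (2 ^ z * 2 ^ b)) ^ k := by gcongr; norm_num
      _ = _ := by
          rw [← pow_add, ← pow_add, ← pow_add, ← pow_mul, ← pow_mul, ← pow_add, ← pow_add]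
          ring_nf

/-- A function bounded by a constant times `x + e + 1`. -/
def Lin (f : ℕ → ℕ → ℕ) : Prop := ∃ c, ∀ e x, f e x ≤ c * (x + e + 1)

theorem Lin.fst : Lin (fun e _ => e) := ⟨1, fun e x => by show e ≤ _; omega⟩
theorem Lin.snd : Lin (fun _ x => x) := ⟨1, fun e x => by show x ≤ _; omega⟩
theorem Lin.const (a : ℕ) : Lin (fun _ _ => a) :=
  ⟨a, fun e x => Nat.le_mul_of_pos_right _ (by omega)⟩
theorem Lin.add {f g : ℕ → ℕ → ℕ} (hf : Lin f) (hg : Lin g) : Lin (fun e x => f e x + g e x) := by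
  obtain ⟨a, ha⟩ := hf
  obtain ⟨b, hb⟩ := hg
  exact ⟨a + b, fun e x => by rw [add_mul]; exact Nat.add_le_add (ha e x) (hb e x)⟩
theorem Lin.smul (a : ℕ) {f : ℕ → ℕ → ℕ} (hf : Lin f) : Lin (fun e x => a * f e x) := by
  obtain ⟨b, hb⟩ := hf
  exact ⟨a * b, fun e x => by rw [mul_assoc]; exact Nat.mul_le_mul_left _ (hb e x)⟩

/-- Exponent of the number of coarse letters. -/
def tE (k b0 e : ℕ) : ℕ := 4 * k * (e + 3) + b0
/-- Exponent of the fine accuracy. -/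
def zE (k b0 e x : ℕ) : ℕ := 2 * x + 2 * tE k b0 e + 2 * e + k + 12
/-- Exponent of the number of fine centres. -/
def nE (k b0 e x : ℕ) : ℕ := 4 * k * zE k b0 e x + b0
/-- Exponent of the comb ratio. -/
def gE (k b0 e x : ℕ) : ℕ := 3 + tE k b0 e + 1 + k + nE k b0 e x
/-- Exponent of the inverse block size. -/
def dE (k b0 e x : ℕ) : ℕ := 2 + k * gE k b0 e x + nE k b0 e x + x + (e + 3 + tE k b0 e)
/-- Exponent of the inverse deletion threshold. -/
def mE (k b0 e x : ℕ) : ℕ := 3 + e + k + k * (x + tE k b0 e + 1)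
/-- Exponent of the number of intervals at each scale. -/
def xE (k b0 e : ℕ) : ℕ → ℕ
  | 0 => 0
  | j + 1 => xE k b0 e j + k * gE k b0 e (xE k b0 e j)
/-- The number of scales. -/
def rE (k b0 e : ℕ) : ℕ :=
  2 ^ (e + 3 + (2 + (tE k b0 e + 4) + (e + 3 + tE k b0 e)) + 1) + 1
/-- The total exponent at one scale. -/
def totE (k b0 e x : ℕ) : ℕ :=
  (2 + k * (2 * (e + 3) + 4 * tE k b0 e + 1)) + (2 + k * (2 * zE k b0 e x + 4 * nE k b0 e x + 1))
  + 2 * k * (dE k b0 e x + mE k b0 e x + x)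
  + (k * (dE k b0 e x + 1) + k * (mE k b0 e x + 1) + k * (x + tE k b0 e + 1))

theorem xE_mono (k b0 e : ℕ) : Monotone (xE k b0 e) :=
  monotone_nat_of_le_succ (fun _ => Nat.le_add_right _ _)

theorem totE_mono (k b0 e : ℕ) : Monotone (totE k b0 e) := by
  intro x y h
  simp only [totE, dE, mE, gE, nE, zE]
  gcongr

theorem growth (k b0 : ℕ) :
    ∃ c, ∀ e, totE k b0 e (xE k b0 e (rE k b0 e)) ≤ 2 ^ (2 ^ (c * (e + 1))) := by
  have ht : Lin (fun e _ => tE k b0 e) :=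
    (Lin.smul (4 * k) (Lin.fst.add (Lin.const 3))).add (Lin.const b0)
  have hz : Lin (fun e x => zE k b0 e x) :=
    (((Lin.smul 2 Lin.snd).add (Lin.smul 2 ht)).add (Lin.smul 2 Lin.fst)).add (Lin.const k)
      |>.add (Lin.const 12)
  have hN : Lin (fun e x => nE k b0 e x) := (Lin.smul (4 * k) hz).add (Lin.const b0)
  have hg : Lin (fun e x => k * gE k b0 e x) :=
    Lin.smul k (((((Lin.const 3).add ht).add (Lin.const 1)).add (Lin.const k)).add hN)
  have hw' : Lin (fun e _ => e + 3 + tE k b0 e) := (Lin.fst.add (Lin.const 3)).add ht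
  have hd : Lin (fun e x => dE k b0 e x) :=
    ((((Lin.const 2).add hg).add hN).add Lin.snd).add hw'
  have hm : Lin (fun e x => mE k b0 e x) :=
    (((Lin.const 3).add Lin.fst).add (Lin.const k)).add
      (Lin.smul k ((Lin.snd.add ht).add (Lin.const 1)))
  have hA : Lin (fun e _ => 2 + k * (2 * (e + 3) + 4 * tE k b0 e + 1)) :=
    (Lin.const 2).add (Lin.smul k (((Lin.smul 2 (Lin.fst.add (Lin.const 3))).add
      (Lin.smul 4 ht)).add (Lin.const 1)))
  have hB : Lin (fun e x => 2 + k * (2 * zE k b0 e x + 4 * nE k b0 e x + 1)) :=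
    (Lin.const 2).add (Lin.smul k (((Lin.smul 2 hz).add (Lin.smul 4 hN)).add (Lin.const 1)))
  obtain ⟨C, hC⟩ : Lin (fun e x => totE k b0 e x) :=
    ((hA.add hB).add (Lin.smul (2 * k) ((hd.add hm).add Lin.snd))).add
      (((Lin.smul k (hd.add (Lin.const 1))).add (Lin.smul k (hm.add (Lin.const 1)))).add
        (Lin.smul k ((Lin.snd.add ht).add (Lin.const 1))))
  obtain ⟨a, ha⟩ := hg
  obtain ⟨r, hr⟩ : Lin (fun e _ => e + 3 + (2 + (tE k b0 e + 4) + (e + 3 + tE k b0 e)) + 2) :=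
    ((Lin.fst.add (Lin.const 3)).add (((Lin.const 2).add (ht.add (Lin.const 4))).add hw')).add
      (Lin.const 2)
  refine ⟨r + 1 + (C + a + 1), fun e => ?_⟩
  have hx : ∀ j, xE k b0 e j + e + 1 ≤ (a + 1) ^ j * (e + 1) := by
    intro j
    induction j with
    | zero => simp [xE]
    | succ j ih =>
      have h1 := ha e (xE k b0 e j)
      simp only at h1
      simp only [xE]
      calc xE k b0 e j + k * gE k b0 e (xE k b0 e j) + e + 1
          ≤ (a + 1) * (xE k b0 e j + e + 1) := by rw [Nat.add_mul, one_mul]; omega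
        _ ≤ (a + 1) * ((a + 1) ^ j * (e + 1)) := Nat.mul_le_mul_left _ ih
        _ = _ := by rw [pow_succ]; ring
  obtain ⟨R, hR⟩ : ∃ R, R = rE k b0 e := ⟨_, rfl⟩
  rw [← hR]
  have hRle : R ≤ 2 ^ (r * (e + 1)) := by
    have h1 := hr e 0
    simp only [Nat.zero_add] at h1
    refine le_trans ?_ (Nat.pow_le_pow_right (by norm_num) h1)
    rw [hR, rE, pow_succ 2 (e + 3 + (2 + (tE k b0 e + 4) + (e + 3 + tE k b0 e)) + 1)]
    have := Nat.one_le_two_pow (n := e + 3 + (2 + (tE k b0 e + 4) + (e + 3 + tE k b0 e)) + 1)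
    omega
  have h1 : totE k b0 e (xE k b0 e R) ≤ 2 ^ (C + a * R + (e + 1)) := by
    calc totE k b0 e (xE k b0 e R) ≤ C * (xE k b0 e R + e + 1) := hC e _
      _ ≤ C * ((a + 1) ^ R * (e + 1)) := Nat.mul_le_mul_left _ (hx R)
      _ ≤ 2 ^ C * ((2 ^ a) ^ R * 2 ^ (e + 1)) := by
          gcongr
          · exact Nat.lt_two_pow_self.le
          · exact Nat.lt_two_pow_self
          · exact Nat.lt_two_pow_self.le
      _ = _ := by rw [← pow_mul, ← pow_add, ← pow_add, add_assoc]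
  refine h1.trans (Nat.pow_le_pow_right (by norm_num) ?_)
  calc C + a * R + (e + 1)
      ≤ (C + a + 1) * 2 ^ ((r + 1) * (e + 1)) := by
        have h2 : 1 ≤ 2 ^ ((r + 1) * (e + 1)) := Nat.one_le_two_pow
        have h3 : R ≤ 2 ^ ((r + 1) * (e + 1)) :=
          hRle.trans (Nat.pow_le_pow_right (by norm_num) (Nat.mul_le_mul_right _ (by omega)))
        have h4 : e + 1 ≤ 2 ^ ((r + 1) * (e + 1)) :=
          (Nat.lt_two_pow_self.le).trans (Nat.pow_le_pow_right (by norm_num)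
            (Nat.le_mul_of_pos_left _ (by omega)))
        nlinarith
    _ ≤ 2 ^ ((C + a + 1) * (e + 1)) * 2 ^ ((r + 1) * (e + 1)) := by
        refine Nat.mul_le_mul_right _ ?_
        exact Nat.lt_two_pow_self.le.trans (Nat.pow_le_pow_right (by norm_num)
          (Nat.le_mul_of_pos_right _ (by omega)))
    _ = _ := by rw [← pow_add]; ring_nf

set_option maxHeartbeats 1000000 in
/-- The removal bound with powers of two. -/
theorem main_nat (hk : 1 ≤ k) (H : Fin k → Fin k → Bool) :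
    ∃ c : ℕ, ∀ (n : ℕ) (A : Fin n → Fin n → Bool) (e : ℕ), 1 ≤ n →
      (∀ B : Fin n → Fin n → Bool, copyCount H B = 0 → n ^ 2 ≤ 2 ^ e * diffCount A B) →
      n ^ (2 * k) ≤ 2 ^ (2 ^ (2 ^ (c * (e + 1)))) * copyCount H A := by
  obtain ⟨b0, hb0⟩ := exists_b0 k
  obtain ⟨c, hc⟩ := growth k b0
  refine ⟨c, fun n A e hn far => ?_⟩
  haveI : NeZero n := ⟨by omega⟩
  refine le_trans ?_ (Nat.mul_le_mul_right _ (Nat.pow_le_pow_right (by norm_num) (hc e)))
  obtain ⟨R, hR⟩ : ∃ R, R = rE k b0 e := ⟨_, rfl⟩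
  rw [← hR]
  obtain ⟨x, hx⟩ : ∃ x, x = xE k b0 e := ⟨_, rfl⟩
  rw [← hx]
  have hfinish : ∀ D N : ℕ, D ≤ totE k b0 e (x R) → n ^ (2 * k) ≤ 2 ^ D * N →
      n ^ (2 * k) ≤ 2 ^ totE k b0 e (x R) * N := fun D N hD h =>
    h.trans (Nat.mul_le_mul_right _ (Nat.pow_le_pow_right (by norm_num) hD))
  by_cases hbig : 2 ^ (dE k b0 e (x R) + mE k b0 e (x R) + x R) ≤ n
  swap
  · refine hfinish (2 * k * (dE k b0 e (x R) + mE k b0 e (x R) + x R)) _
      (by simp only [totE]; omega) ?_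
    refine le_trans ?_ (Nat.le_mul_of_pos_right _ (copy_pos_of_far hn H A _ far))
    rw [mul_comm (2 * k), pow_mul 2]
    exact Nat.pow_le_pow_left (le_of_lt (not_le.1 hbig)) _
  obtain ⟨t, ht⟩ : ∃ t, t = tE k b0 e := ⟨_, rfl⟩
  rcases cover_log hk H A b0 hb0 (e + 3) with ⟨Cs, Lt, hCs, hLt, hLtd, hLtn⟩ | h
  swap
  · refine hfinish _ _ ?_ h
    simp only [totE, tE]
    omega
  rw [show 4 * k * (e + 3) + b0 = t from ht.symm] at hCs
  have hE8 : 2 ^ (e + 3) = 8 * 2 ^ e := by rw [pow_add]; ring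
  rw [hE8] at hLtn
  simp only [hE8] at hLtd
  have hW : 8 * (2 ^ t + 1) ≤ 2 ^ (t + 4) := by
    have := Nat.one_le_two_pow (n := t)
    rw [pow_add]
    omega
  obtain ⟨j, hj, hlost⟩ := exists_stable_scale Lt Cs (fun j => 2 ^ x j)
    (fun j => 2 ^ (k * gE k b0 e (x j))) (2 ^ (t + 4)) (2 ^ (e + 3 + t)) (8 * 2 ^ e) R
    (Nat.mul_pos (by norm_num) (Nat.two_pow_pos _)) hn (fun _ => Nat.one_le_two_pow)
    (fun _ => Nat.one_le_two_pow)
    (fun j => by rw [← pow_add, hx]; rfl)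
    (le_trans (Nat.pow_le_pow_right (by norm_num) (by omega)) hbig)
    (by
      rw [hR, rE, ← hE8, ← ht]
      simp only [pow_add, pow_one]
      have : 0 < 2 ^ e := Nat.two_pow_pos _
      linarith)
  obtain ⟨y, hy⟩ : ∃ y, y = x j := ⟨_, rfl⟩
  simp only [← hy] at hlost
  have hyR : y ≤ x R := by
    rw [hy, hx]
    exact xE_mono k b0 e hj.le
  have htot := totE_mono k b0 e hyR
  have hbig' : 2 ^ (dE k b0 e y + mE k b0 e y + y) ≤ n := by
    refine le_trans (Nat.pow_le_pow_right (by norm_num) ?_) hbig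
    have h1 : dE k b0 e y ≤ dE k b0 e (x R) := by simp only [dE, gE, nE, zE]; gcongr
    have h2 : mE k b0 e y ≤ mE k b0 e (x R) := by simp only [mE]; gcongr
    omega
  rcases cover_log hk H A b0 hb0 (zE k b0 e y) with ⟨Cf, Lf, hCf, hLf, hLfd, hLfn⟩ | h
  swap
  · refine hfinish _ _ (le_trans ?_ htot) h
    simp only [totE, nE]
    omega
  rw [show 4 * k * zE k b0 e y + b0 = nE k b0 e y from rfl] at hCf
  obtain ⟨μ, hμ⟩ : ∃ μ, μ = n / 2 ^ dE k b0 e y := ⟨_, rfl⟩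
  obtain ⟨m0, hm0⟩ : ∃ m, m = n / 2 ^ mE k b0 e y := ⟨_, rfl⟩
  have hμ1 : 1 ≤ μ := by
    rw [hμ, Nat.one_le_div_iff (Nat.two_pow_pos _)]
    exact le_trans (Nat.pow_le_pow_right (by norm_num) (by omega)) hbig'
  have hm01 : 1 ≤ m0 := by
    rw [hm0, Nat.one_le_div_iff (Nat.two_pow_pos _)]
    exact le_trans (Nat.pow_le_pow_right (by norm_num) (by omega)) hbig'
  have hk2 : k ≤ 2 ^ k := Nat.lt_two_pow_self.le
  have ht1 : 2 ^ t + 1 ≤ 2 ^ (t + 1) := by
    have := Nat.one_le_two_pow (n := t)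
    rw [pow_succ]
    omega
  have hcore := core hk H A Lt Lf Cs Cf (2 ^ y) (2 ^ gE k b0 e y) (2 ^ nE k b0 e y)
    (2 ^ zE k b0 e y) (2 ^ (t + 4)) (2 ^ (e + 3 + t)) (2 ^ e) (2 ^ t) μ m0
    Nat.one_le_two_pow Nat.one_le_two_pow Nat.one_le_two_pow Nat.one_le_two_pow hμ1 hm01
    hCs hLt hLtd hLtn hCf hLf hLfd hLfn
    (by rw [← pow_mul, mul_comm (gE k b0 e y) k]; exact hlost)
    (le_of_eq (by simp only [pow_add]; ring)) hW
    (by
      calc 4 * 2 ^ y * 2 ^ (e + 3 + t) * 2 ^ (t + 4) = 2 ^ (2 + y + (e + 3 + t) + (t + 4)) := by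
            simp only [pow_add]; ring
        _ ≤ _ := Nat.pow_le_pow_right (by norm_num) (by simp only [zE, ← ht]; omega))
    (by
      calc 8 * ((2 ^ t + 1) * k * 2 ^ nE k b0 e y)
          ≤ 8 * (2 ^ (t + 1) * 2 ^ k * 2 ^ nE k b0 e y) := by gcongr
        _ = 2 ^ (3 + t + 1 + k + nE k b0 e y) := by simp only [pow_add]; ring
        _ = _ := by simp only [gE, ← ht])
    (by
      calc 16 * 2 ^ e * (2 ^ y * (2 ^ t + 1)) * k
          ≤ 16 * 2 ^ e * (2 ^ y * 2 ^ (t + 1)) * 2 ^ k := by gcongr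
        _ = 2 ^ (4 + e + y + (t + 1) + k) := by simp only [pow_add]; ring
        _ ≤ _ := Nat.pow_le_pow_right (by norm_num) (by simp only [zE, ← ht]; omega))
    (by
      calc 8 * 2 ^ e * k * m0 * (2 ^ y * (2 ^ t + 1)) ^ k
          ≤ 8 * 2 ^ e * 2 ^ k * m0 * (2 ^ y * 2 ^ (t + 1)) ^ k := by gcongr
        _ = m0 * 2 ^ mE k b0 e y := by
            rw [← pow_add, ← pow_mul]
            simp only [mE, ← ht, pow_add]
            ring_nf
        _ ≤ n := by rw [hm0]; exact Nat.div_mul_le_self _ _)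
    (by
      calc μ * (4 * (2 ^ gE k b0 e y) ^ k * 2 ^ nE k b0 e y * 2 ^ y * 2 ^ (e + 3 + t))
          = μ * 2 ^ dE k b0 e y := by
            rw [← pow_mul]
            simp only [dE, ← ht, pow_add]
            ring_nf
        _ ≤ n := by rw [hμ]; exact Nat.div_mul_le_self _ _)
    (by
      refine le_trans ?_ hbig'
      calc 4 * 2 ^ y * (2 ^ gE k b0 e y) ^ k = 2 ^ (2 + y + k * gE k b0 e y) := by
            rw [← pow_mul]; simp only [pow_add]; ring_nf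
        _ ≤ _ := Nat.pow_le_pow_right (by norm_num) (by simp only [dE]; omega))
    far
  refine hfinish (k * (dE k b0 e y + 1) + k * (mE k b0 e y + 1) + k * (y + t + 1)) _
    (le_trans (by simp only [totE, ← ht]; omega) htot) ?_
  have hsplit : ∀ d v, v = n / 2 ^ d → 1 ≤ v → n ≤ 2 ^ (d + 1) * v := by
    intro d v hv hv1
    have h1 := Nat.div_add_mod n (2 ^ d)
    have h2 := Nat.mod_lt n (Nat.two_pow_pos d)
    rw [← hv] at h1
    have h3 : 2 ^ d ≤ 2 ^ d * v := Nat.le_mul_of_pos_right _ hv1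
    rw [pow_succ, mul_comm (2 ^ d) 2, mul_assoc]
    omega
  calc n ^ (2 * k) = n ^ k * n ^ k := by rw [two_mul, pow_add]
    _ ≤ (2 ^ (dE k b0 e y + 1) * μ) ^ k * (2 ^ (mE k b0 e y + 1) * m0) ^ k :=
        Nat.mul_le_mul (Nat.pow_le_pow_left (hsplit _ _ hμ hμ1) _)
          (Nat.pow_le_pow_left (hsplit _ _ hm0 hm01) _)
    _ = 2 ^ (k * (dE k b0 e y + 1) + k * (mE k b0 e y + 1)) * (m0 ^ k * μ ^ k) := by
        rw [mul_pow, mul_pow, ← pow_mul, ← pow_mul, pow_add, mul_comm (dE k b0 e y + 1) k,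
          mul_comm (mE k b0 e y + 1) k]
        ring
    _ ≤ 2 ^ (k * (dE k b0 e y + 1) + k * (mE k b0 e y + 1)) *
        ((2 ^ y * 2 ^ (t + 1)) ^ k * copyCount H A) := by
        refine Nat.mul_le_mul_left _ (hcore.trans ?_)
        gcongr
    _ = _ := by
        rw [← pow_add, ← pow_mul, ← mul_assoc, ← pow_add]
        ring_nf

/-- The removal bound with a real exponential. -/
theorem main_real (k : ℕ) (H : Fin k → Fin k → Bool) :
    ∃ C : ℝ, 0 < C ∧ ∀ (n : ℕ) (A : Fin n → Fin n → Bool) (ε : ℝ), 1 ≤ n → 0 < ε → ε < 1 →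
      (∀ B : Fin n → Fin n → Bool, copyCount H B = 0 →
        ε * (n : ℝ) ^ 2 ≤ (diffCount A B : ℝ)) →
      Real.exp (-Real.exp ((2 / ε) ^ C)) * (n : ℝ) ^ (2 * k) ≤ (copyCount H A : ℝ) := by
  rcases Nat.eq_zero_or_pos k with rfl | hk
  · refine ⟨1, one_pos, fun n A ε _ _ _ _ => ?_⟩
    have : 1 ≤ copyCount H A := by
      rw [← card_copySet, Finset.one_le_card]
      refine ⟨(fun i => i.elim0, fun i => i.elim0), ?_⟩
      simp only [copySet, mem_filter, mem_univ, true_and]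
      exact ⟨fun a => a.elim0, fun a => a.elim0, fun i => i.elim0⟩
    have h1 : Real.exp (-Real.exp ((2 / ε) ^ (1 : ℝ))) ≤ 1 :=
      Real.exp_le_one_iff.2 (neg_nonpos.2 (Real.exp_pos _).le)
    have h2 : (1 : ℝ) ≤ (copyCount H A : ℝ) := by exact_mod_cast this
    simpa using h1.trans h2
  obtain ⟨c, hc⟩ := main_nat hk H
  refine ⟨2 * c + 1, by positivity, fun n A ε hn hε hε1 far => ?_⟩
  have hev : ∃ e : ℕ, 1 / ε ≤ (2 : ℝ) ^ e := by
    obtain ⟨e, he⟩ := pow_unbounded_of_one_lt (1 / ε) (show (1 : ℝ) < 2 by norm_num)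
    exact ⟨e, he.le⟩
  obtain ⟨e, he1, hmin⟩ : ∃ e : ℕ, 1 / ε ≤ (2 : ℝ) ^ e ∧ ∀ e' < e, ¬ 1 / ε ≤ (2 : ℝ) ^ e' :=
    ⟨Nat.find hev, Nat.find_spec hev, fun e' he' => Nat.find_min hev he'⟩
  have he2 : (2 : ℝ) ^ e ≤ 2 / ε := by
    rcases e with _ | e
    · rw [pow_zero, le_div_iff₀ hε]
      linarith
    · have := not_le.1 (hmin e (by omega))
      rw [pow_succ, show (2 : ℝ) / ε = 1 / ε * 2 by ring]
      linarith
  have farN : ∀ B : Fin n → Fin n → Bool, copyCount H B = 0 → n ^ 2 ≤ 2 ^ e * diffCount A B := by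
    intro B hB
    have h1 := far B hB
    have h2 : ((n ^ 2 : ℕ) : ℝ) ≤ ((2 ^ e * diffCount A B : ℕ) : ℝ) := by
      push_cast
      calc (n : ℝ) ^ 2 = 1 / ε * (ε * (n : ℝ) ^ 2) := by field_simp
        _ ≤ (2 : ℝ) ^ e * (diffCount A B : ℝ) := by gcongr
    exact_mod_cast h2
  have hmain := hc n A e hn farN
  obtain ⟨X, hX⟩ : ∃ X : ℕ, X = 2 ^ (c * (e + 1)) := ⟨_, rfl⟩
  rw [← hX] at hmain
  have hcast : (n : ℝ) ^ (2 * k) ≤ (2 : ℝ) ^ (2 ^ X) * (copyCount H A : ℝ) := by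
    exact_mod_cast hmain
  have hbase : (1 : ℝ) ≤ 2 / ε := by
    rw [le_div_iff₀ hε]
    linarith
  have hXle : (X : ℝ) ≤ (2 / ε) ^ (2 * (c : ℝ) + 1) := by
    rw [hX]
    push_cast
    calc (2 : ℝ) ^ (c * (e + 1)) = ((2 : ℝ) * 2 ^ e) ^ c := by rw [← pow_succ', ← pow_mul]; ring_nf
      _ ≤ ((2 / ε) * (2 / ε)) ^ c := by
          gcongr
          · rw [le_div_iff₀ hε]; linarith
      _ = (2 / ε) ^ (2 * c) := by rw [pow_mul]; ring_nf
      _ ≤ (2 / ε) ^ (2 * c + 1) := pow_le_pow_right₀ hbase (by omega)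
      _ = _ := by rw [← Real.rpow_natCast]; push_cast; rfl
  have h2e : (2 : ℝ) ≤ Real.exp 1 := by
    have := Real.exp_one_gt_d9
    linarith
  have hpow : (2 : ℝ) ^ (2 ^ X) ≤ Real.exp (Real.exp ((2 / ε) ^ (2 * (c : ℝ) + 1))) := by
    calc (2 : ℝ) ^ (2 ^ X) ≤ Real.exp 1 ^ (2 ^ X) := by gcongr
      _ = Real.exp ((2 : ℝ) ^ X) := by rw [← Real.exp_nat_mul, mul_one]; push_cast; ring_nf
      _ ≤ _ := by
          refine Real.exp_le_exp.2 ?_
          calc (2 : ℝ) ^ X ≤ Real.exp 1 ^ X := by gcongr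
            _ = Real.exp (X : ℝ) := by rw [← Real.exp_nat_mul, mul_one]
            _ ≤ _ := Real.exp_le_exp.2 hXle
  rw [Real.exp_neg, inv_mul_le_iff₀ (Real.exp_pos _)]
  exact hcast.trans (mul_le_mul_of_nonneg_right hpow (Nat.cast_nonneg _))

end Vale.Agent.P037
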